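import Vale.Agent.P088.R2.H168.INF.Qb

/-!
# P088, stage 3, leaf iH: both levels moderate, the slope dominates everything

`W = Φ(l(x) + l(y)) + f + Θ(l(x)) + Θ(l(y))`, flat metric, quadratic level, `Φ'` much larger than
the derivatives of `f`.
-/

open MeasureTheory Set Filter
open scoped ContDiff Topology Matrix

noncomputable section

namespace Vale.Agent.P088.R2.H168.INF

open Vale.Agent.P088.R2.H961.GW Vale.Agent.P088.R2.H960.W Vale.Agent.P088.R2.H644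
open Vale.Agent.P088.R2.H551.E Vale.Agent.P088.LR Vale.Agent.P088.HY Vale.Agent.P088.R2.H475
open Vale.Agent.P088.R2.H269.INF

variable {n : ℕ} {E : Type*} [NormedAddCommGroup E] [NormedSpace ℝ E]

section zero

variable {ι κ : Type*} [Fintype ι] [Fintype κ] {σ : Sl E ι} {τ : Sl E κ} {U : Set E}
  {θ f : E → ℝ} {z : E}

theorem Hc_of0 (hU : IsOpen U) (h : ∀ z ∈ U, ∀ k, τ.D k f z = 0) (hz : z ∈ U) (k l : κ) :
    τ.Hc f k l z = 0 := by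
  have e : ∀ j k, τ.D j (τ.D k f) z = 0 := fun j k => by
    rw [D_congr τ hU (g := fun _ => 0) (fun z hz => h z hz k) j hz, D_const]
  unfold Sl.Hc
  simp only [e, h z hz]
  simp

theorem HH_of0 (hU : IsOpen U) (h : ∀ z ∈ U, ∀ k, τ.D k f z = 0) (hz : z ∈ U) (B : κ → ℝ) :
    HH τ f z B = 0 := by
  unfold HH
  simp only [Hc_of0 hU h hz]
  simp

theorem Mc_of0 (hU : IsOpen U) (h : ∀ z ∈ U, ∀ k, τ.D k f z = 0) (hz : z ∈ U) (i : ι) (k : κ) :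
    Ch.Mc σ τ f i k z = 0 := by
  unfold Ch.Mc
  have e : ∀ j l, σ.D j (τ.D l f) z = 0 := fun j l => by
    rw [D_congr σ hU (g := fun _ => 0) (fun z hz => h z hz l) j hz, D_const]
  simp only [e]
  simp

theorem MM_of0 (hU : IsOpen U) (h : ∀ z ∈ U, ∀ k, τ.D k f z = 0) (hz : z ∈ U) (A : ι → ℝ)
    (B : κ → ℝ) : MM σ τ f z A B = 0 := by
  unfold MM
  simp only [Mc_of0 hU h hz]
  simp

theorem TH_eq' (σ : Sl E ι) (τ : Sl E κ) (f : E → ℝ) (z : E) (A : ι → ℝ) (B : κ → ℝ) :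
    Ch.TH σ τ f z A B = HH σ f z A + 2 * MM σ τ f z A B + HH τ f z B := rfl

/-- A function of the first variable. -/
theorem TH_of0 (hU : IsOpen U) (h : ∀ z ∈ U, ∀ k, τ.D k f z = 0) (hz : z ∈ U) (A : ι → ℝ)
    (B : κ → ℝ) : Ch.TH σ τ f z A B = HH σ f z A := by
  rw [TH_eq', MM_of0 hU h hz, HH_of0 hU h hz]; ring

end zero

section flat

variable {σ τ : Sl E (Fin n)} {π π' : E → V n} {s s' : MF n} {θ f W : E → ℝ} {ε R : ℝ} {z : E}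
  {sg kap Gs : ℝ}

/-- The Hessian form of one slot from bounds (flat region). -/
theorem HH_le_flat (p : Pj σ π s) (m : Mt ε R s) (hn : 1 ≤ n) (h0 : 0 < sg)
    (h1 : sg ≤ 1 / 5000) (hR : 0 < R) (hz : z ∈ Fl π sg R kap Gs) {b : ℝ}
    (hb : ∀ i j, |σ.D i (σ.D j f) z| ≤ b) (A : Fin n → ℝ) :
    |HH σ f z A| ≤ b * (n * ∑ i, A i ^ 2) := by
  rw [Fl_HH p m hn h0 h1 hR hz]
  have b0 : 0 ≤ b := (abs_nonneg _).trans (hb ⟨0, by omega⟩ ⟨0, by omega⟩)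
  refine (quad_le b (fun i j => ?_) A).trans (mul_le_mul_of_nonneg_left (a1_sq A) b0)
  rw [abs_mul, abs_of_pos (by norm_num : (0 : ℝ) < 1 / 2)]
  have := abs_add_le (σ.D i (σ.D j f) z) (σ.D j (σ.D i f) z)
  have h2 := hb i j
  have h3 := hb j i
  linarith

/-- The mixed form from bounds (flat region). -/
theorem MM_le_flat (p : Pj σ π s) (m : Mt ε R s) (p' : Pj τ π' s') (m' : Mt ε R s') (hn : 1 ≤ n)
    (h0 : 0 < sg) (h1 : sg ≤ 1 / 5000) (hR : 0 < R) (hz : z ∈ Fl π sg R kap Gs)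
    (hz' : z ∈ Fl π' sg R kap Gs) {b : ℝ} (hb : ∀ i j, |σ.D i (τ.D j f) z| ≤ b)
    (A B : Fin n → ℝ) :
    |MM σ τ f z A B| ≤ b * (n * (1 / 2 * (∑ i, A i ^ 2 + ∑ i, B i ^ 2))) := by
  have b0 : 0 ≤ b := (abs_nonneg _).trans (hb ⟨0, by omega⟩ ⟨0, by omega⟩)
  have e : ∀ i k, Ch.Mc σ τ f i k z = σ.D i (τ.D k f) z := by
    intro i k
    unfold Ch.Mc
    simp only [Fl_sz p m hn h0 h1 hR hz, Fl_sz p' m' hn h0 h1 hR hz']
    rw [Finset.sum_eq_single i, Finset.sum_eq_single k]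
    · simp
    · intro l _ hl
      simp [Matrix.one_apply_ne' hl]
    · simp
    · intro j _ hj
      exact Finset.sum_eq_zero fun k _ => by simp [Matrix.one_apply_ne' hj]
    · simp
  unfold MM
  simp only [e]
  have h2 : |∑ i, ∑ k, σ.D i (τ.D k f) z * A i * B k| ≤ b * ((∑ i, |A i|) * ∑ i, |B i|) := by
    rw [Finset.sum_mul_sum, Finset.mul_sum]
    refine (Finset.abs_sum_le_sum_abs _ _).trans (Finset.sum_le_sum fun i _ => ?_)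
    rw [Finset.mul_sum]
    refine (Finset.abs_sum_le_sum_abs _ _).trans (Finset.sum_le_sum fun j _ => ?_)
    rw [abs_mul, abs_mul, mul_assoc]
    exact mul_le_mul_of_nonneg_right (hb i j) (by positivity)
  refine h2.trans (mul_le_mul_of_nonneg_left ?_ b0)
  have k1 := a1_sq A
  have k2 := a1_sq B
  nlinarith [sq_nonneg ((∑ i, |A i|) - ∑ i, |B i|)]

end flat

/-- The data of one point of `H1`. -/
structure P1 (n : ℕ) (s₁ s₂ : MF n) (sg R kap Gs ε : ℝ) (Φ Φ₁ Φ₂ Θ Θ₁ Θ₂ : ℝ → ℝ)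
    (f : VV n → ℝ) (C D b : ℝ) (g gx gy : ℕ → ℝ) (z : VV n) : Prop where
  hn : 1 ≤ n
  h0 : 0 < sg
  h1 : sg ≤ 1 / 5000
  hR : 0 < R
  m₁ : Mt ε R s₁
  m₂ : Mt ε R s₂
  z₁ : z ∈ Fl Prod.fst sg R kap Gs
  z₂ : z ∈ Fl Prod.snd sg R kap Gs
  cΦ : Ch.Cp univ (fun z : VV n => levG n sg R kap Gs z.1 + levG n sg R kap Gs z.2) Φ Φ₁ Φ₂
  cx : Ch.Cp univ (fun z : VV n => levG n sg R kap Gs z.1) Θ Θ₁ Θ₂
  cy : Ch.Cp univ (fun z : VV n => levG n sg R kap Gs z.2) Θ Θ₁ Θ₂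
  sf : ContDiff ℝ ∞ f
  C0 : 0 < C
  D1 : 1 ≤ D
  bf : Sb4 (slx (fun _ => (1 : ℝ)) s₁) (sly (fun _ => (1 : ℝ)) s₂) f C (fun _ => b) z
  b0 : 0 ≤ b
  bW : Sb5 (slx (fun _ => (1 : ℝ)) s₁) (sly (fun _ => (1 : ℝ)) s₂)
    (fun z => (Φ (levG n sg R kap Gs z.1 + levG n sg R kap Gs z.2) + f z) +
      Θ (levG n sg R kap Gs z.1) + Θ (levG n sg R kap Gs z.2)) C g gx gy z
  N1 : 1 ≤ Φ₁ (levG n sg R kap Gs z.1 + levG n sg R kap Gs z.2)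
  K0 : 0 ≤ Φ₂ (levG n sg R kap Gs z.1 + levG n sg R kap Gs z.2)
  tx : 0 ≤ Θ₁ (levG n sg R kap Gs z.1)
  ty : 0 ≤ Θ₁ (levG n sg R kap Gs z.2)
  tx2 : 0 ≤ Θ₂ (levG n sg R kap Gs z.1)
  ty2 : 0 ≤ Θ₂ (levG n sg R kap Gs z.2)
  bg : ∀ j ≤ 3, 0 ≤ g j ∧ g j ≤ D * Φ₁ (levG n sg R kap Gs z.1 + levG n sg R kap Gs z.2)
  bx : ∀ j ≤ 3, 0 ≤ gx j ∧ gx j ≤ D * (Φ₁ (levG n sg R kap Gs z.1 + levG n sg R kap Gs z.2) +
    Θ₁ (levG n sg R kap Gs z.1))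
  bY : ∀ j ≤ 3, 0 ≤ gy j ∧ gy j ≤ D * (Φ₁ (levG n sg R kap Gs z.1 + levG n sg R kap Gs z.2) +
    Θ₁ (levG n sg R kap Gs z.2))
  bb : 16 * n * C * b ≤ sg / R * Φ₁ (levG n sg R kap Gs z.1 + levG n sg R kap Gs z.2)

section pt

variable {s₁ s₂ : MF n} {sg R kap Gs ε : ℝ} {Φ Φ₁ Φ₂ Θ Θ₁ Θ₂ : ℝ → ℝ} {f : VV n → ℝ}
  {C D b : ℝ} {g gx gy : ℕ → ℝ} {z : VV n}

theorem levG_sm (h0 : 0 < sg) (h1 : sg ≤ 1 / 5000) : ContDiff ℝ ∞ (levG n sg R kap Gs) :=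
  levG_smooth h0 h1

theorem τL1 (h0 : 0 < sg) (h1 : sg ≤ 1 / 5000) (z : VV n) (k : Fin n) :
    (sly (fun _ => (1 : ℝ)) s₂).D k (fun z : VV n => levG n sg R kap Gs z.1) z = 0 :=
  Dy_fst ((levG_smooth h0 h1).differentiable (by simp) _) k

theorem σL2 (h0 : 0 < sg) (h1 : sg ≤ 1 / 5000) (z : VV n) (k : Fin n) :
    (slx (fun _ => (1 : ℝ)) s₁).D k (fun z : VV n => levG n sg R kap Gs z.2) z = 0 :=
  Dx_snd ((levG_smooth h0 h1).differentiable (by simp) _) k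

/-- **The Hessian of the weight.** -/
theorem P1.TH (P : P1 n s₁ s₂ sg R kap Gs ε Φ Φ₁ Φ₂ Θ Θ₁ Θ₂ f C D b g gx gy z)
    (A B : Fin n → ℝ) :
    sg / R * ((Φ₁ (levG n sg R kap Gs z.1 + levG n sg R kap Gs z.2) +
      Θ₁ (levG n sg R kap Gs z.1)) * ∑ i, A i ^ 2 +
      (Φ₁ (levG n sg R kap Gs z.1 + levG n sg R kap Gs z.2) +
      Θ₁ (levG n sg R kap Gs z.2)) * ∑ i, B i ^ 2) -
      2 * n * C * b * (∑ i, A i ^ 2 + ∑ i, B i ^ 2) ≤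
    Ch.TH (slx (fun _ => (1 : ℝ)) s₁) (sly (fun _ => (1 : ℝ)) s₂)
      (fun z => (Φ (levG n sg R kap Gs z.1 + levG n sg R kap Gs z.2) + f z) +
      Θ (levG n sg R kap Gs z.1) + Θ (levG n sg R kap Gs z.2)) z A B := by
  obtain ⟨hn, h0, h1, hR, m₁, m₂, z₁, z₂, cΦ, cx, cy, sf, C0, D1, bf, b0, -, N1, K0, tx, ty, tx2,
    ty2, -, -, -, -⟩ := P
  set σ := slx (fun _ => (1 : ℝ)) s₁ with hσ
  set τ := sly (fun _ => (1 : ℝ)) s₂ with hτ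
  set L1 : VV n → ℝ := fun z => levG n sg R kap Gs z.1 with hL1
  set L2 : VV n → ℝ := fun z => levG n sg R kap Gs z.2 with hL2
  have ok : σ.Ok univ 1 := ok_x m₁ m₂
  have ot : τ.Ok univ 1 := ok_y m₁ m₂
  have hz : z ∈ (univ : Set (VV n)) := mem_univ _
  have s1 : Sm univ L1 := cx.su
  have s2 : Sm univ L2 := cy.su
  have sf' : Sm univ f := sf.contDiffOn
  have e1 : Ch.TH σ τ (fun z => (Φ (L1 z + L2 z) + f z) + Θ (L1 z) + Θ (L2 z)) z A B =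
      Ch.TH σ τ (fun z => Φ (L1 z + L2 z)) z A B + Ch.TH σ τ f z A B +
        Ch.TH σ τ (fun z => Θ (L1 z)) z A B + Ch.TH σ τ (fun z => Θ (L2 z)) z A B := by
    rw [Ch.TH_add ok ot ((cΦ.s0.add sf').add cx.s0) cy.s0 hz,
      Ch.TH_add ok ot (cΦ.s0.add sf') cx.s0 hz, Ch.TH_add ok ot cΦ.s0 sf' hz]
  have e2 := Ch.TH_comp ok ot cΦ hz A B
  have e3 : Ch.TH σ τ (fun z => L1 z + L2 z) z A B = HH σ L1 z A + HH τ L2 z B := by
    rw [Ch.TH_add ok ot s1 s2 hz, TH_of0 isOpen_univ (fun z _ k => τL1 h0 h1 z k) hz, TH_eq',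
      HH_of0 isOpen_univ (fun z _ k => σL2 h0 h1 z k) hz]
    have : MM σ τ L2 z A B = 0 := by
      have hm : ∀ i k, Ch.Mc σ τ L2 i k z = 0 := by
        intro i k
        unfold Ch.Mc
        have hc : ∀ j l, σ.D j (τ.D l L2) z = 0 := by
          intro j l
          have e : τ.D l L2 = fun z : VV n => pd l (levG n sg R kap Gs) z.2 :=
            (pj_y s₂).DL (levG_smooth h0 h1) l
          rw [e]
          exact Dx_snd ((cd_pd (levG_smooth h0 h1) l).differentiable (by simp) _) j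
        simp only [hc]
        simp
      unfold MM
      simp only [hm]
      simp
    rw [this]
    ring
  have f1 := Fl_HL (pj_x s₁) m₁ hn h0 h1 hR z₁ A
  have f2 := Fl_HL (pj_y s₂) m₂ hn h0 h1 hR z₂ B
  have g1 := Fl_ss (pj_x s₁) m₁ hn h0 h1 hR z₁ A
  have g2 := Fl_ss (pj_y s₂) m₂ hn h0 h1 hR z₂ B
  have e4 : Ch.TH σ τ (fun z => Θ (L1 z)) z A B = Θ₁ (L1 z) * HH σ L1 z A +
      Θ₂ (L1 z) * gA σ L1 z A ^ 2 := by
    rw [TH_of0 isOpen_univ (fun z hz k => ?_) hz, HH_comp ok cx hz]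
    rw [Ch.D_comp isOpen_univ cx k hz, τL1 h0 h1, mul_zero]
  have e5 : Θ₁ (L2 z) * HH τ L2 z B ≤ Ch.TH σ τ (fun z => Θ (L2 z)) z A B := by
    have k1 := Ch.TH_comp ok ot cy hz A B
    have k2 : Ch.TH σ τ L2 z A B = HH τ L2 z B := by
      have h3 := Ch.TH_add ok ot s1 s2 hz A B
      rw [e3, TH_of0 isOpen_univ (fun z _ k => τL1 h0 h1 z k) hz] at h3
      linarith
    rw [k1, k2]
    have := mul_nonneg ty2 (sq_nonneg (Ch.GA σ τ L2 z A B))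
    linarith
  have a0 : 0 ≤ ∑ i, A i ^ 2 := Finset.sum_nonneg fun _ _ => sq_nonneg _
  have β0 : 0 ≤ ∑ i, B i ^ 2 := Finset.sum_nonneg fun _ _ => sq_nonneg _
  have e6 : -(2 * n * C * b * (∑ i, A i ^ 2 + ∑ i, B i ^ 2)) ≤ Ch.TH σ τ f z A B := by
    rw [TH_eq']
    have k1 := (abs_le.1 (HH_le_flat (pj_x s₁) m₁ hn h0 h1 hR z₁ bf.d2 A)).1
    have k2 := (abs_le.1 (HH_le_flat (pj_y s₂) m₂ hn h0 h1 hR z₂ bf.d2' B)).1
    have k3 := (abs_le.1 (MM_le_flat (pj_x s₁) m₁ (pj_y s₂) m₂ hn h0 h1 hR z₁ z₂ bf.dm A B)).1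
    linarith
  have k1 := mul_nonneg K0 (sq_nonneg (Ch.GA σ τ (fun z => L1 z + L2 z) z A B))
  have k2 := mul_nonneg tx2 (sq_nonneg (gA σ L1 z A))
  rw [e1, e2, e3, e4]
  rw [f2, g2] at e5 ⊢
  rw [f1, g1]
  linarith

/-- **The pointwise star form.** -/
theorem P1.pt (P : P1 n s₁ s₂ sg R kap Gs ε Φ Φ₁ Φ₂ Θ Θ₁ Θ₂ f C D b g gx gy z)
    {e r : ℝ} (he : (256 * n ^ 3 * C ^ 2 * D * (R / sg) + 20 * C) * D ^ 2 *
      (Φ₁ (levG n sg R kap Gs z.1 + levG n sg R kap Gs z.2) + Θ₁ (levG n sg R kap Gs z.1)) ^ 2 ≤ e)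
    (hr : (256 * n ^ 3 * C ^ 2 * D * (R / sg) + 20 * C) * D ^ 2 *
      (Φ₁ (levG n sg R kap Gs z.1 + levG n sg R kap Gs z.2) + Θ₁ (levG n sg R kap Gs z.2)) ^ 2 ≤ r)
    (A B : Fin n → ℝ) (x y : ℝ) :
    4 * (sg / R * (Φ₁ (levG n sg R kap Gs z.1 + levG n sg R kap Gs z.2) +
      Θ₁ (levG n sg R kap Gs z.1)) * ss (slx (fun _ => (1 : ℝ)) s₁) A z +
      sg / R * (Φ₁ (levG n sg R kap Gs z.1 + levG n sg R kap Gs z.2) +
      Θ₁ (levG n sg R kap Gs z.2)) * ss (sly (fun _ => (1 : ℝ)) s₂) B z) -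
      (e * x ^ 2 + r * y ^ 2) ≤
    8 * Ch.TH (slx (fun _ => (1 : ℝ)) s₁) (sly (fun _ => (1 : ℝ)) s₂)
      (fun z => (Φ (levG n sg R kap Gs z.1 + levG n sg R kap Gs z.2) + f z) +
      Θ (levG n sg R kap Gs z.1) + Θ (levG n sg R kap Gs z.2)) z A B +
    H747.S.qf (slx (fun _ => (1 : ℝ)) s₁) (sly (fun _ => (1 : ℝ)) s₂) 0 0
      (fun z => (Φ (levG n sg R kap Gs z.1 + levG n sg R kap Gs z.2) + f z) +
      Θ (levG n sg R kap Gs z.1) + Θ (levG n sg R kap Gs z.2)) z A B x y := by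
  have T := P.TH A B
  obtain ⟨hn, h0, h1, hR, m₁, m₂, z₁, z₂, cΦ, cx, cy, sf, C0, D1, bf, b0, bW, N1, K0, tx, ty, tx2,
    ty2, bg, bx, bY, bb⟩ := P
  have n1 : (1 : ℝ) ≤ n := by exact_mod_cast hn
  set N := Φ₁ (levG n sg R kap Gs z.1 + levG n sg R kap Gs z.2) with hN
  set t1 := Θ₁ (levG n sg R kap Gs z.1) with ht1
  set t2 := Θ₁ (levG n sg R kap Gs z.2) with ht2
  have D0 : 0 < D := by linarith
  have g1 := Fl_ss (pj_x s₁) m₁ hn h0 h1 hR z₁ A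
  have g2 := Fl_ss (pj_y s₂) m₂ hn h0 h1 hR z₂ B
  rw [g1, g2]
  have hs : ∀ i j, |(slx (fun _ => (1 : ℝ)) s₁).s i j z| ≤ 2 := by
    intro i j
    rw [Fl_sz (pj_x s₁) m₁ hn h0 h1 hR z₁, Matrix.one_apply]
    split_ifs <;> norm_num
  have hs' : ∀ i j, |(sly (fun _ => (1 : ℝ)) s₂).s i j z| ≤ 2 := by
    intro i j
    rw [Fl_sz (pj_y s₂) m₂ hn h0 h1 hR z₂, Matrix.one_apply]
    split_ifs <;> norm_num
  set t : ℝ := sg / R / (32 * n ^ 2 * C * D) with ht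
  have t0 : 0 < t := by positivity
  have Q := qf_bd (t := t) (G := D * N) (X := D * (N + t1)) (Y := D * (N + t2)) bW hs hs' C0.le t0
    (by nlinarith) (mul_le_mul_of_nonneg_left (by linarith) D0.le)
    (mul_le_mul_of_nonneg_left (by linarith) D0.le) bg bx bY A B x y
  have a0 : 0 ≤ ∑ i, A i ^ 2 := Finset.sum_nonneg fun _ _ => sq_nonneg _
  have β0 : 0 ≤ ∑ i, B i ^ 2 := Finset.sum_nonneg fun _ _ => sq_nonneg _
  have e1 : 32 * n ^ 2 * C * t * (D * (N + t1) * ∑ i, A i ^ 2 + D * (N + t2) * ∑ i, B i ^ 2) =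
      sg / R * ((N + t1) * ∑ i, A i ^ 2 + (N + t2) * ∑ i, B i ^ 2) := by
    rw [ht]
    field_simp
  have e2 : 8 * n * C / t = 256 * n ^ 3 * C ^ 2 * D * (R / sg) := by
    rw [ht]
    field_simp
    ring
  rw [e1, e2] at Q
  have x2 := mul_le_mul_of_nonneg_right he (sq_nonneg x)
  have y2 := mul_le_mul_of_nonneg_right hr (sq_nonneg y)
  have c0 : 0 < sg / R := by positivity
  have k1 : 16 * n * C * b * (∑ i, A i ^ 2 + ∑ i, B i ^ 2) ≤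
      sg / R * ((N + t1) * ∑ i, A i ^ 2 + (N + t2) * ∑ i, B i ^ 2) := by
    have h2 := mul_le_mul_of_nonneg_right bb (add_nonneg a0 β0)
    have h3 : 0 ≤ sg / R * (t1 * ∑ i, A i ^ 2 + t2 * ∑ i, B i ^ 2) := by positivity
    linarith
  have k2 : 0 ≤ sg / R * ((N + t1) * ∑ i, A i ^ 2 + (N + t2) * ∑ i, B i ^ 2) := by positivity
  linarith

end pt

end Vale.Agent.P088.R2.H168.INF
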