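import Vale.Agent.P088.R2.H168.INF.H1

/-!
# P088, stage 3, leaf iH: the zone inequality of the balanced part
-/

open MeasureTheory Set Filter
open scoped ContDiff Topology Matrix

noncomputable section

namespace Vale.Agent.P088.R2.H168.INF

open Vale.Agent.P088.R2.H961.GW Vale.Agent.P088.R2.H960.W Vale.Agent.P088.R2.H644
open Vale.Agent.P088.R2.H551.E Vale.Agent.P088.LR Vale.Agent.P088.HY Vale.Agent.P088.R2.H475
open Vale.Agent.P088.R2.H269.INF

variable {n : ℕ} {E ι : Type*} [NormedAddCommGroup E] [NormedSpace ℝ E] [Fintype ι]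

/-- The margin of the leaves iS, iH: `lam_i` is `(1/100) (σ/R) n_i`. -/
def mH (σ τ : Sl E ι) (W χ lam mu : E → ℝ) : Q8 E where
  κ z := χ z ^ 2
  ζ₁ z := χ z ^ 2 * (lam z / 6)
  ζ₂ z := χ z ^ 2 * (mu z / 6)
  ζy _ := 0
  w₁ z := χ z ^ 2 * (lam z * σ.F W z / 4 + lam z ^ 2 / 4)
  w₂ z := χ z ^ 2 * (mu z * τ.F W z / 4 + mu z ^ 2 / 4)
  wb _ := 0
  wc _ := 0

theorem mH_ct {σ τ : Sl E ι} {U : Set E} {θ W χ lam mu : E → ℝ} (ok : σ.Ok U θ) (ot : τ.Ok U θ)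
    (hW : Sm U W) (hχ : Sm U χ) (sl : Sm U lam) (sm : Sm U mu) :
    (mH σ τ W χ lam mu).Ct U := by
  have hq : Sm U fun z => χ z ^ 2 := hχ.pow 2
  exact ⟨hq.continuousOn, (hq.mul (sl.div_const 6)).continuousOn,
    (hq.mul (sm.div_const 6)).continuousOn, continuousOn_const,
    (hq.mul (((sl.mul (ok.sF hW)).div_const 4).add ((sl.pow 2).div_const 4))).continuousOn,
    (hq.mul (((sm.mul (ot.sF hW)).div_const 4).add ((sm.pow 2).div_const 4))).continuousOn,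
    continuousOn_const, continuousOn_const⟩

theorem mT_ct {σ τ : Sl E ι} {U : Set E} {θ W χ lam mu e r : E → ℝ} (ok : σ.Ok U θ)
    (ot : τ.Ok U θ) (hW : Sm U W) (hχ : Sm U χ) (sl : Sm U lam) (sm : Sm U mu)
    (ce : ContinuousOn e U) (cr : ContinuousOn r U) : (mT σ τ W χ lam mu e r).Ct U := by
  have hq : Sm U fun z => χ z ^ 2 := hχ.pow 2
  exact ⟨hq.continuousOn, (hq.mul sl).continuousOn,
    (hq.mul sm).continuousOn, continuousOn_const,
    hq.continuousOn.mul (((sl.mul (ok.sF hW)).add (contDiffOn_const.mul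
      ((sl.mul (ok.sL hW)).add (ok.sG sl hW)))).continuousOn.sub ce),
    hq.continuousOn.mul (((sm.mul (ot.sF hW)).add (contDiffOn_const.mul
      ((sm.mul (ot.sL hW)).add (ot.sG sm hW)))).continuousOn.sub cr),
    continuousOn_const, continuousOn_const⟩

theorem cT_ct {σ τ : Sl E ι} {U : Set E} {θ χ lam mu : E → ℝ} (ok : σ.Ok U θ)
    (ot : τ.Ok U θ) (hχ : Sm U χ) (sl : Sm U lam) (sm : Sm U mu) :
    (cT σ τ χ lam mu).Ct U :=
  ⟨continuousOn_const, continuousOn_const, continuousOn_const, continuousOn_const,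
    ((contDiffOn_const.mul sl).mul (ok.sG hχ hχ)).continuousOn,
    ((contDiffOn_const.mul sm).mul (ot.sG hχ hχ)).continuousOn,
    continuousOn_const, continuousOn_const⟩

/-- One slot, one point: the final weight of `a²`. -/
theorem fin_T {F La Ga lam c e nx CD : ℝ} (hl : lam = c * nx) (hc : 0 < c) (h1 : 1 ≤ nx)
    (hF : 7 / 8 * nx ^ 2 ≤ F) (hL : |La| ≤ CD * nx) (hG : 0 ≤ Ga)
    (hCD : 0 ≤ CD) (k1 : 32 * CD ≤ nx) (k2 : e ≤ lam * F / 8) (k3 : c ≤ 1) :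
    1 / 100 * lam * F / 4 + (1 / 100 * lam) ^ 2 / 4 ≤ lam * F + 2 * (lam * La + Ga) - e := by
  have l0 : 0 ≤ lam := by rw [hl]; positivity
  have F0 : 0 ≤ F := le_trans (by positivity) hF
  have h2 : CD * nx ≤ nx ^ 2 / 32 := by nlinarith
  have h3 : -(F / 28) ≤ La := by
    have := (abs_le.1 hL).1
    linarith
  have h4 : lam * -(F / 28) ≤ lam * La := mul_le_mul_of_nonneg_left h3 l0
  have h5 : lam ≤ nx := by rw [hl]; nlinarith
  have h6 : lam ≤ 8 / 7 * F := by nlinarith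
  have h7 : lam ^ 2 ≤ lam * (8 / 7 * F) := by nlinarith
  have h8 : 0 ≤ lam * F := mul_nonneg l0 F0
  nlinarith

section zone

variable {s₁ s₂ : MF n} {sg R kap Gs ε : ℝ} {Φ Φ₁ Φ₂ Φ₃ Θ Θ₁ Θ₂ Θ₃ : ℝ → ℝ} {f : VV n → ℝ}
  {C D b : ℝ} {g gx gy : ℕ → ℝ} {z : VV n}

/-- `n_x`, `n_y`. -/
def nX (n : ℕ) (sg R kap Gs : ℝ) (Φ₁ Θ₁ : ℝ → ℝ) (z : VV n) : ℝ :=
  Φ₁ (levG n sg R kap Gs z.1 + levG n sg R kap Gs z.2) + Θ₁ (levG n sg R kap Gs z.1)

def nY (n : ℕ) (sg R kap Gs : ℝ) (Φ₁ Θ₁ : ℝ → ℝ) (z : VV n) : ℝ :=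
  Φ₁ (levG n sg R kap Gs z.1 + levG n sg R kap Gs z.2) + Θ₁ (levG n sg R kap Gs z.2)

/-- The facts of one slot at a point of `H1`: `|D W|²` and `Γ(lam, W)`. -/
theorem slot_F {σ : Sl E (Fin n)} {π : E → V n} {s : MF n} {θ L f W : E → ℝ} {z : E}
    {nx d : ℝ} (p : Pj σ π s) (m : Mt ε R s) (hn : 1 ≤ n) (h0 : 0 < sg)
    (h1 : sg ≤ 1 / 5000) (hR : 0 < R) (hz : z ∈ Fl π sg R kap Gs)
    (hD : ∀ i, σ.D i W z = nx * wR n sg R (π z) i + σ.D i f z) (hd : ∀ i, |σ.D i f z| ≤ d)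
    (hx : 0 ≤ nx) (hb : 16 * n * d ≤ nx) :
    7 / 8 * nx ^ 2 ≤ σ.F W z ∧
      0 ≤ σ.Γ (fun z => levG n sg R kap Gs (π z)) W z := by
  have q1 := Fl_q p m hn h0 h1 hR hz
  set q := HY.sq (wR n sg R (π z)) with hq
  have n1 : (1 : ℝ) ≤ n := by exact_mod_cast hn
  have a2 := a1_sq (wR n sg R (π z))
  set a := ∑ i, |wR n sg R (π z) i| with ha
  have a0 : 0 ≤ a := Finset.sum_nonneg fun _ _ => abs_nonneg _
  have e0 : ∑ i, wR n sg R (π z) i ^ 2 = q := rfl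
  rw [e0] at a2
  have aq : a ≤ n * q := by
    have h3 : (1 : ℝ) ≤ n * q := by nlinarith
    have h2 : a ^ 2 ≤ (n * q) ^ 2 := by
      calc a ^ 2 ≤ n * q := a2
        _ = (n * q) * 1 := by ring
        _ ≤ (n * q) * (n * q) := mul_le_mul_of_nonneg_left h3 (by linarith)
        _ = _ := by ring
    exact abs_le_of_sq_le_sq' h2 (by linarith) |>.2
  have d0 : 0 ≤ d := (abs_nonneg _).trans (hd ⟨0, by omega⟩)
  have s1 : |∑ i, wR n sg R (π z) i * σ.D i f z| ≤ d * a := by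
    rw [ha, Finset.mul_sum]
    refine (Finset.abs_sum_le_sum_abs _ _).trans (Finset.sum_le_sum fun i _ => ?_)
    rw [abs_mul, mul_comm]
    exact mul_le_mul_of_nonneg_right (hd i) (abs_nonneg _)
  have s2 : d * a ≤ nx / 16 * q := by
    have := mul_le_mul_of_nonneg_left aq d0
    nlinarith
  constructor
  · unfold Sl.F
    rw [Fl_G p m hn h0 h1 hR hz]
    have e : ∑ i, σ.D i W z * σ.D i W z = nx ^ 2 * q +
        2 * nx * (∑ i, wR n sg R (π z) i * σ.D i f z) + ∑ i, σ.D i f z ^ 2 := by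
      rw [← e0, Finset.mul_sum, Finset.mul_sum, ← Finset.sum_add_distrib, ← Finset.sum_add_distrib]
      refine Finset.sum_congr rfl fun i _ => ?_
      rw [hD]; ring
    rw [e]
    have h2 : 0 ≤ ∑ i, σ.D i f z ^ 2 := Finset.sum_nonneg fun _ _ => sq_nonneg _
    have h3 := (abs_le.1 (s1.trans s2)).1
    have h4 := mul_le_mul_of_nonneg_left h3 (by positivity : (0 : ℝ) ≤ 2 * nx)
    nlinarith [sq_nonneg nx]
  · rw [Fl_G p m hn h0 h1 hR hz]
    have e : ∑ i, σ.D i (fun z => levG n sg R kap Gs (π z)) z * σ.D i W z = nx * q +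
        ∑ i, wR n sg R (π z) i * σ.D i f z := by
      rw [← e0, Finset.mul_sum, ← Finset.sum_add_distrib]
      refine Finset.sum_congr rfl fun i _ => ?_
      rw [Fl_D p m hn h0 h1 hR hz, hD]; ring
    rw [e]
    have h3 := (abs_le.1 (s1.trans s2)).1
    have : 0 ≤ nx * q := by positivity
    linarith

end zone

end Vale.Agent.P088.R2.H168.INF
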