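import Vale.Agent.P088.R2.H168.INF.Tr
import Vale.Agent.P088.R2.H380.INF.IS
import Vale.Agent.P088.R2.H404.INF.RowL

/-!
# P088, stage 3, leaf iH: the parts `H2` from the rows
-/

open Set Filter MeasureTheory
open scoped ContDiff Topology Matrix

noncomputable section

namespace Vale.Agent.P088.R2.H168.INF

open Vale.Agent.P088.LR Vale.Agent.P088.HY Vale.Agent.P088.R2.H31.EP
open Vale.Agent.P088.R2.H961.GW Vale.Agent.P088.R2.H644 Vale.Agent.P088.R2.H551.E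
open Vale.Agent.P088.R2.H404.INF (InfC evInf lvG l₀_eq gl_le)
open Vale.Agent.P088.R2.H380.INF (W_smS cm1)
open Vale.Agent.P088.R2.H475

variable {n : ℕ} {q : Cst} {d : Pk n}

/-- The conditions on the constants. -/
structure HC (n : ℕ) (q : Cst) : Prop where
  inf : InfC q
  ε0 : 0 < q.ε
  ε1 : n * q.ε ≤ 1 / 2
  M1 : 1 ≤ q.M₀

theorem evHC (n : ℕ) : EvC (HC n) := by
  refine ((evInf.and (H404.INF.evEps n)).and EvC.pos).mono ?_
  rintro q ⟨⟨h1, h2⟩, -, -, hM, -⟩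
  refine ⟨h1, h2.ε0, ?_, hM⟩
  have h3 := h2.ε1
  have h4 := h1.σ1
  have h5 := h2.ε0
  have h6 : (n : ℝ) * q.ε ≤ H404.INF.cL n * q.ε := by
    refine mul_le_mul_of_nonneg_right ?_ h5.le
    unfold H404.INF.cL
    have : (0 : ℝ) ≤ n := Nat.cast_nonneg n
    nlinarith [pow_nonneg this 2, pow_nonneg this 3]
  linarith

section sm

variable (h : PkOk q d)

include h

theorem sW0 (hε : n * q.ε ≤ 1 / 2) : ContDiff ℝ ∞ (W0 q d) :=
  WW_smooth h.ok h.lev.sm (h.gi_sm hε)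

theorem slx1 : ContDiff ℝ ∞ fun z : VV n => d.l z.1 := h.lev.sm.comp contDiff_fst
theorem sly1 : ContDiff ℝ ∞ fun z : VV n => d.l z.2 := h.lev.sm.comp contDiff_snd

theorem sΘx : ContDiff ℝ ∞ fun z : VV n => d.Θ (d.l z.1) := h.Θs.comp (slx1 h)
theorem sΘy : ContDiff ℝ ∞ fun z : VV n => d.Θ (d.l z.2) := h.Θs.comp (sly1 h)

theorem sΘ' : ContDiff ℝ ∞ (deriv d.Θ) := (contDiff_infty_iff_deriv.1 h.Θs).2
theorem sΦ' : ContDiff ℝ ∞ (deriv d.Φ) := (contDiff_infty_iff_deriv.1 h.top.sm).2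

theorem shN : ContDiff ℝ ∞ (hN q d) := (sΦ' h).comp
  (((h.lev.sm.comp h.ret.sm).comp contDiff_fst).add ((h.lev.sm.comp h.ret.sm).comp contDiff_snd))

theorem shX : ContDiff ℝ ∞ (hX q d) := (shN h).add ((sΘ' h).comp (slx1 h))
theorem shY : ContDiff ℝ ∞ (hY q d) := (shN h).add ((sΘ' h).comp (sly1 h))
theorem slm : ContDiff ℝ ∞ (lmH q d) := contDiff_const.mul (shX h)
theorem smu : ContDiff ℝ ∞ (muH q d) := contDiff_const.mul (shY h)

theorem shX0 : ContDiff ℝ ∞ (hX0 q d) :=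
  ((sΦ' h).comp ((slx1 h).add (sly1 h))).add ((sΘ' h).comp (slx1 h))
theorem shY0 : ContDiff ℝ ∞ (hY0 q d) :=
  ((sΦ' h).comp ((slx1 h).add (sly1 h))).add ((sΘ' h).comp (sly1 h))

theorem swX0 (hε : n * q.ε ≤ 1 / 2) : ContDiff ℝ ∞ (wX0 q d) := (sW0 h hε).add (sΘx h)
theorem swY0 (hε : n * q.ε ≤ 1 / 2) : ContDiff ℝ ∞ (wY0 q d) := (sW0 h hε).add (sΘy h)

end sm

/-! ### The maps -/

/-- The retraction of one variable. -/
def pY (d : Pk n) (z : VV n) : VV n := (d.P z.1, z.2)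
def pX (d : Pk n) (z : VV n) : VV n := (z.1, d.P z.2)

theorem tm_y (h : PkOk q d) : Tm d.sy (pY d) where
  sm := (h.ret.sm.comp contDiff_fst).prodMk contDiff_snd
  dv z i := by
    have h1 : HasFDerivAt (pY d) (((fderiv ℝ d.P z.1).comp
        (ContinuousLinearMap.fst ℝ (V n) (V n))).prod (ContinuousLinearMap.snd ℝ (V n) (V n))) z :=
      (((h.ret.sm.differentiable (by simp) z.1).hasFDerivAt.comp z hasFDerivAt_fst)).prodMk
        hasFDerivAt_snd
    rw [h1.fderiv]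
    change ((fderiv ℝ d.P z.1) ((0 : V n)), (Pi.single i (1 : ℝ) : V n)) = _
    rw [map_zero]
    rfl
  ρ _ := rfl
  s _ _ _ := rfl
  k _ _ := rfl

theorem tm_x (h : PkOk q d) : Tm d.sx (pX d) where
  sm := contDiff_fst.prodMk (h.ret.sm.comp contDiff_snd)
  dv z i := by
    have h1 : HasFDerivAt (pX d) ((ContinuousLinearMap.fst ℝ (V n) (V n)).prod
        ((fderiv ℝ d.P z.2).comp (ContinuousLinearMap.snd ℝ (V n) (V n)))) z :=
      hasFDerivAt_fst.prodMk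
        ((h.ret.sm.differentiable (by simp) z.2).hasFDerivAt.comp z hasFDerivAt_snd)
    rw [h1.fderiv]
    change ((Pi.single i (1 : ℝ) : V n), (fderiv ℝ d.P z.2) ((0 : V n))) = _
    rw [map_zero]
    rfl
  ρ _ := rfl
  s _ _ _ := rfl
  k _ _ := rfl

/-- The open sets. -/
def Oy (q : Cst) (d : Pk n) : Set (VV n) := {z | d.l z.2 < d.l₀ q + 3 * q.R}
def Ox (q : Cst) (d : Pk n) : Set (VV n) := {z | d.l z.1 < d.l₀ q + 3 * q.R}

theorem Oy_open (h : PkOk q d) : IsOpen (Oy q d) :=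
  isOpen_lt (sly1 h).continuous continuous_const
theorem Ox_open (h : PkOk q d) : IsOpen (Ox q d) :=
  isOpen_lt (slx1 h).continuous continuous_const

theorem ag_W_y (h : PkOk q d) (hε : n * q.ε ≤ 1 / 2) :
    Ag d.sy (pY d) (Oy q d) (d.W q) (wY0 q d) := by
  refine Ag.of (c := fun z => d.Θ (d.l z.1)) (tm_y h) (Oy_open h) (swY0 h hε) (fun z hz => ?_)
    (sΘx h) fun i z => ?_
  · have e2 := h.ret.id z.2 (le_of_lt hz)
    unfold Pk.W WT wY0 W0 pY
    simp only [e2]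
    ring
  · exact Dy_fst (g := fun x => d.Θ (d.l x)) ((h.Θs.comp h.lev.sm).differentiable (by simp) _) i

theorem ag_W_x (h : PkOk q d) (hε : n * q.ε ≤ 1 / 2) :
    Ag d.sx (pX d) (Ox q d) (d.W q) (wX0 q d) := by
  refine Ag.of (c := fun z => d.Θ (d.l z.2)) (tm_x h) (Ox_open h) (swX0 h hε) (fun z hz => ?_)
    (sΘy h) fun i z => ?_
  · have e2 := h.ret.id z.1 (le_of_lt hz)
    unfold Pk.W WT wX0 W0 pX
    simp only [e2]
    ring
  · exact Dx_snd (g := fun x => d.Θ (d.l x)) ((h.Θs.comp h.lev.sm).differentiable (by simp) _) i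

theorem hY_eq (h : PkOk q d) {z : VV n} (hz : z ∈ Oy q d) : hY q d z = hY0 q d (pY d z) := by
  have e2 := h.ret.id z.2 (le_of_lt hz)
  unfold hY hY0 hN pY
  rw [e2]

theorem hX_eq (h : PkOk q d) {z : VV n} (hz : z ∈ Ox q d) : hX q d z = hX0 q d (pX d z) := by
  have e2 := h.ret.id z.1 (le_of_lt hz)
  unfold hX hX0 hN pX
  rw [e2]

theorem ag_mu (h : PkOk q d) :
    Ag d.sy (pY d) (Oy q d) (muH q d) (fun z => 1 / 100 * (q.σ / q.R) * hY0 q d z) := by
  refine Ag.of (c := fun _ => 0) (tm_y h) (Oy_open h) (contDiff_const.mul (shY0 h))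
    (fun z hz => ?_) contDiff_const fun i z => D_const _ 0 i z
  unfold muH
  rw [hY_eq h hz]
  ring

theorem ag_lm (h : PkOk q d) :
    Ag d.sx (pX d) (Ox q d) (lmH q d) (fun z => 1 / 100 * (q.σ / q.R) * hX0 q d z) := by
  refine Ag.of (c := fun _ => 0) (tm_x h) (Ox_open h) (contDiff_const.mul (shX0 h))
    (fun z hz => ?_) contDiff_const fun i z => D_const _ 0 i z
  unfold lmH
  rw [hX_eq h hz]
  ring

theorem okx (h : PkOk q d) (hR : 0 < q.R) : d.sx.Ok univ 1 :=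
  ok_x (mt₁ le_rfl hR h.rg) (mt₂ le_rfl hR h.rg)
theorem oky (h : PkOk q d) (hR : 0 < q.R) : d.sy.Ok univ 1 :=
  ok_y (mt₁ le_rfl hR h.rg) (mt₂ le_rfl hR h.rg)

/-- **The facts of the slot `y` at `z` from the facts at `(P x, y)`.** -/
theorem own_y (h : PkOk q d) (hR : 0 < q.R) (hε : n * q.ε ≤ 1 / 2) {z : VV n} (hz : z ∈ Oy q d)
    (o : OY q d (pY d z)) : Own d.sy (d.W q) (muH q d) (eH q (hY q d z)) z := by
  rw [hY_eq h hz]
  refine Own.tr (tm_y h) (oky h hR) (fun _ => rfl) (ag_W_y h hε) (ag_mu h) hz ?_ o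
  unfold muH
  rw [hY_eq h hz]

theorem own_x (h : PkOk q d) (hR : 0 < q.R) (hε : n * q.ε ≤ 1 / 2) {z : VV n} (hz : z ∈ Ox q d)
    (o : OX q d (pX d z)) : Own d.sx (d.W q) (lmH q d) (eH q (hX q d z)) z := by
  rw [hX_eq h hz]
  refine Own.tr (tm_x h) (okx h hR) (fun _ => rfl) (ag_W_x h hε) (ag_lm h) hz ?_ o
  unfold lmH
  rw [hX_eq h hz]

/-! ### The levels of the images -/

theorem P_lev (hn : 1 ≤ n) (hq : InfC q) (h : PkOk q d) {x : V n}
    (hx : d.l₀ q + 285 / 100 * q.R ≤ d.l x) :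
    d.l₀ q + 285 / 100 * q.R ≤ d.l (d.P x) ∧ d.l (d.P x) ≤ d.l₀ q + 31 / 10 * q.R := by
  have hR := hq.R0
  have h0 := hq.σ0
  have h1 := hq.σ1
  by_cases hc : d.l x ≤ d.l₀ q + 3 * q.R
  · rw [h.ret.id x hc]
    exact ⟨hx, by linarith⟩
  · rw [not_le] at hc
    have F : H871.INF.RetF n q.σ q.R d.P := by
      rw [h.ret.lit]
      exact H871.INF.retF hn h0 (by linarith) hR
    have hl : ∀ x, 0 ≤ T4.gy n q.σ (q.R⁻¹ • x) → d.l x = lv n q.σ q.R d.kap d.Gs x := by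
      intro x hx
      rw [h.lev.lit]
      refine levG_eq_lv hn h0 h1 ?_
      have h2 := gy_wv hn h0.ne' (q.R⁻¹ • x)
      rw [h2] at hx
      have h3 : 0 ≤ HY.sq (wv n q.σ (q.R⁻¹ • x)) - 1 := by
        by_contra hc
        have := div_neg_of_neg_of_pos (not_le.1 hc) (by positivity : 0 < 2 * q.σ)
        linarith
      have h4 : th1 q.σ ≤ 1 := by unfold th1; nlinarith
      change th1 q.σ ≤ HY.sq (wv n q.σ (q.R⁻¹ • x))
      linarith
    have h5 : 3 ≤ T4.gy n q.σ (q.R⁻¹ • x) := by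
      have h6 : levG n q.σ q.R d.kap d.Gs x = lv n q.σ q.R d.kap d.Gs x := by
        refine levG_high hn h0 h1 hR ?_
        rw [← h.lev.lit]
        have e : lam0 q.R d.kap d.Gs = d.l₀ q := rfl
        rw [e]
        linarith
      rw [h.lev.lit, h6] at hc
      unfold lv Pk.l₀ at hc
      nlinarith
    have h7 := F.lP_le hR hl h5
    have e : d.l₀ q = Real.log (d.kap / q.R) - q.R * d.Gs := rfl
    rw [e]
    exact ⟨by linarith [h7.1], h7.2⟩

/-- The rows together. -/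
theorem row_O (hq : InfC q) (h : PkOk q d)
    (o1 : ∀ z : VV n, 2 * d.l₀ q + 91 / 20 * q.R ≤ d.l z.1 + d.l z.2 →
      (LvY q d z → OY q d z) ∧ (LvX q d z → OX q d z))
    (o2 : ∀ z : VV n, (q.κ₁ * q.R / 4) ^ 2 < HY.sq (z.1 - z.2) →
      -(11 / 1000) * (q.R / q.σ) < d.l z.1 + d.l z.2 + 4 / 5 * √(q.R ^ 2 + HY.sq (z.1 - z.2)) →
      (LvY q d z → OY q d z) ∧ (LvX q d z → OX q d z))
    (o3 : ∀ z : VV n,
      d.l z.1 + d.l z.2 + 4 / 5 * √(q.R ^ 2 + HY.sq (z.1 - z.2)) ≤ -(5 / 1000) * (q.R / q.σ) →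
      (LvY q d z → OY q d z) ∧ (LvX q d z → OX q d z)) (z : VV n) :
    (LvY q d z → OY q d z) ∧ (LvX q d z → OX q d z) := by
  have hR := hq.R0
  have L := lvG hq h
  by_cases h1 : 2 * d.l₀ q + 91 / 20 * q.R ≤ d.l z.1 + d.l z.2
  · exact o1 z h1
  · rw [not_le] at h1
    by_cases h2 : (q.κ₁ * q.R / 4) ^ 2 < HY.sq (z.1 - z.2)
    · by_cases h3 : -(11 / 1000) * (q.R / q.σ) <
          d.l z.1 + d.l z.2 + 4 / 5 * √(q.R ^ 2 + HY.sq (z.1 - z.2))
      · exact o2 z h2 h3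
      · refine o3 z ?_
        have : 0 < q.R / q.σ := div_pos hR hq.σ0
        linarith [not_lt.1 h3]
    · have h3 : √(HY.sq (z.1 - z.2)) ≤ 1 / 50 * q.R := by
        rw [Real.sqrt_le_left (by positivity)]
        refine (not_lt.1 h2).trans (pow_le_pow_left₀ (by have := hq.κ0; positivity) ?_ 2)
        nlinarith [hq.κ1]
      have h3' : √(HY.sq (z.2 - z.1)) ≤ 1 / 50 * q.R := by
        rw [H404.INF.sq_swap]
        exact h3
      have h4 := (gl_le hq h).1 (L.near_up h3 (by linarith))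
      have h5 := (gl_le hq h).1 (L.near_up h3' (by linarith))
      exact ⟨fun a => absurd a.1 (by linarith), fun a => absurd a.1 (by linarith)⟩

end Vale.Agent.P088.R2.H168.INF
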