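import Vale.Agent.P088.R2.H168.INF.H2

/-!
# P088, stage 3, leaf iH: the hypotheses `Pn` on the parts `H2`, and the row `H2`
-/

open Set Filter MeasureTheory
open scoped ContDiff Topology Matrix

noncomputable section

namespace Vale.Agent.P088.R2.H168.INF

open Vale.Agent.P088.LR Vale.Agent.P088.HY Vale.Agent.P088.R2.H31.EP
open Vale.Agent.P088.R2.H961.GW Vale.Agent.P088.R2.H644 Vale.Agent.P088.R2.H551.E
open Vale.Agent.P088.R2.H404.INF (InfC evInf lvG l₀_eq gl_le)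
open Vale.Agent.P088.R2.H380.INF (W_smS cm1)
open Vale.Agent.P088.R2.H475

section abs

variable {E ι κ : Type*} [NormedAddCommGroup E] [NormedSpace ℝ E] [Fintype ι] [Fintype κ]
  {σ : Sl E ι} {τ : Sl E κ} {θ W lam mu : E → ℝ} {z : E} {m f e f' : ℝ}

theorem G_zero' (σ : Sl E ι) (W : E → ℝ) (z : E) : σ.Γ W (fun _ => 0) z = 0 := by
  unfold Sl.Γ
  simp [D_const]

/-- The mixed Hessian is symmetric in the slots. -/
theorem MM_swap (c : Cm σ τ univ) (hW : ContDiff ℝ ∞ W) (A : ι → ℝ) (B : κ → ℝ) :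
    MM τ σ W z B A = MM σ τ W z A B := by
  unfold MM
  rw [Finset.sum_comm]
  refine Finset.sum_congr rfl fun i _ => Finset.sum_congr rfl fun k _ => ?_
  have : Ch.Mc τ σ W k i z = Ch.Mc σ τ W i k z := by
    unfold Ch.Mc
    rw [Finset.sum_comm]
    refine Finset.sum_congr rfl fun j _ => Finset.sum_congr rfl fun l _ => ?_
    rw [c.cc W hW.contDiffOn z (mem_univ z) j l]
    ring
  rw [this]
  ring

/-- `Pn` from the very stiff slot `σ` and the facts of the slot `τ`. -/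
theorem Stf.pn (S : Stf σ τ W lam e m f' z) (hl : 0 ≤ lam z) (hm : 0 ≤ mu z) (he : 0 ≤ e)
    (hf' : 0 ≤ f') (s1 : ∀ A : ι → ℝ, 0 ≤ ss σ A z) (s2 : ∀ B : κ → ℝ, 0 ≤ ss τ B z)
    (hmu : m ≤ mu z) (hff : f' ≤ f) (h2 : ∀ B : κ → ℝ, mu z * ss τ B z ≤ HH τ W z B)
    (o2 : 2 * |τ.Λ (τ.Λ W) z| ≤ f + 2 * HH τ W z (fun i => τ.D i W z)) :
    Pn σ τ (fun _ => 0) (fun _ => 0) W (lam z) (mu z) e f z := by
  have hms : ∀ B : κ → ℝ, m * ss τ B z ≤ mu z * ss τ B z := fun B =>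
    mul_le_mul_of_nonneg_right hmu (s2 B)
  have H1 : ∀ A : ι → ℝ, 0 ≤ HH σ W z A := fun A => (mul_nonneg hl (s1 A)).trans (S.h A)
  refine ⟨hl, hm, he, hf'.trans hff, s1, s2, S.h, h2, fun A B => ?_, fun A y => ?_,
    fun B x => ?_, ?_, ?_, o2, ?_, ?_⟩
  · have := S.mm A B
    have := hms B
    linarith
  · have h3 := S.g1 A y
    have h4 : f' / 2 * y ^ 2 ≤ f / 2 * y ^ 2 :=
      mul_le_mul_of_nonneg_right (by linarith) (sq_nonneg y)
    linarith
  · have := S.g2 B x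
    have := hms B
    linarith
  · exact S.m2.trans (mul_le_mul_of_nonneg_left hff he)
  · have := S.o
    have := H1 fun i => σ.D i W z
    linarith
  · rw [G_zero']
    simpa using he
  · rw [G_zero']
    simpa using hf'.trans hff

/-- The mirror. -/
theorem Stf.pn' (S : Stf τ σ W lam e m f' z) (ok : σ.Ok univ θ) (ot : τ.Ok univ θ)
    (c : Cm σ τ univ) (hW : ContDiff ℝ ∞ W) (hl : 0 ≤ lam z) (hm : 0 ≤ mu z) (he : 0 ≤ e)
    (hf' : 0 ≤ f') (s1 : ∀ A : ι → ℝ, 0 ≤ ss σ A z) (s2 : ∀ B : κ → ℝ, 0 ≤ ss τ B z)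
    (hmu : m ≤ mu z) (hff : f' ≤ f) (h2 : ∀ B : ι → ℝ, mu z * ss σ B z ≤ HH σ W z B)
    (o2 : 2 * |σ.Λ (σ.Λ W) z| ≤ f + 2 * HH σ W z (fun i => σ.D i W z)) :
    Pn σ τ (fun _ => 0) (fun _ => 0) W (mu z) (lam z) f e z := by
  have P := S.pn hl hm he hf' s2 s1 hmu hff h2 o2
  refine ⟨P.m0, P.l0, P.f0, P.e0, P.s2, P.s1, P.h2, P.h1, fun A B => ?_, P.g2, P.g1, ?_, P.o2,
    P.o1, P.p2, P.p1⟩
  · rw [← MM_swap c hW]
    have := P.mm B A
    linarith
  · have h3 := P.m2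
    rw [M2_swap ok ot c hW.contDiffOn hW.contDiffOn (mem_univ z),
      ← L_L ok ot c hW.contDiffOn (mem_univ z)] at h3
    linarith

end abs

variable {n : ℕ} {q : Cst} {d : Pk n}

theorem eH_nn (q : Cst) (m : ℝ) : 0 ≤ eH q m := by unfold eH; positivity

theorem eH_mono {a b : ℝ} (ha : 0 ≤ a) (hab : a ≤ b) (h : 0 ≤ q.σ / q.R) : eH q a ≤ eH q b := by
  unfold eH
  have := mul_le_mul_of_nonneg_left hab h
  have h2 : ((q.σ / q.R) * a) ^ 2 ≤ ((q.σ / q.R) * b) ^ 2 :=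
    pow_le_pow_left₀ (mul_nonneg h ha) this 2
  linarith

/-- The slopes are at least `1`. -/
theorem hXY_ge (hc : HC n q) (h : PkOk q d) (z : VV n) : 1 ≤ hX q d z ∧ 1 ≤ hY q d z := by
  have h1 : q.M₀ ≤ hN q d z := (h.ph.isΦ.n1 _).trans (h.top.l1 _)
  have h2 := h.Θd0 hc.inf.R0 (d.l z.1)
  have h3 := h.Θd0 hc.inf.R0 (d.l z.2)
  have := hc.M1
  unfold hX hY
  constructor <;> linarith

/-- The facts of a slot from `Own`. -/
theorem Own.pw {E ι : Type*} [NormedAddCommGroup E] [NormedSpace ℝ E] [Fintype ι]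
    {σ : Sl E ι} {W lam : E → ℝ} {e : ℝ} {hi : Prop} {z : E} (o : Own σ W lam e z)
    (l0 : 0 ≤ lam z) (s1 : ∀ A : ι → ℝ, 0 ≤ ss σ A z) (hn : ¬hi) : PW σ W lam e hi z where
  l0 := l0
  psd A := (mul_nonneg l0 (s1 A)).trans (o.h A)
  w := o.w
  w' h := absurd h hn
  pen h := absurd h hn

theorem Stf.pw {E ι κ : Type*} [NormedAddCommGroup E] [NormedSpace ℝ E] [Fintype ι] [Fintype κ]
    {σ : Sl E ι} {τ : Sl E κ} {W lam : E → ℝ} {e m f : ℝ} {hi : Prop} {z : E}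
    (o : Stf σ τ W lam e m f z)
    (l0 : 0 ≤ lam z) (s1 : ∀ A : ι → ℝ, 0 ≤ ss σ A z) : PW σ W lam e hi z where
  l0 := l0
  psd A := (mul_nonneg l0 (s1 A)).trans (o.h A)
  w := by
    have h1 := o.w
    have h2 : 0 ≤ lam z * σ.F W z / 8 := by
      have := mul_nonneg l0 (s1 fun i => σ.D i W z)
      have e1 : ss σ (fun i => σ.D i W z) z = σ.F W z := rfl
      rw [e1] at this
      linarith
    linarith
  w' _ := o.w
  pen _ := o.pen

/-- **The pointwise facts.** -/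
structure H2F (q : Cst) (d : Pk n) (z : VV n) : Prop where
  pn : Pn d.sx d.sy (fun _ => 0) (fun _ => 0) (d.W q) (lmH q d z) (muH q d z)
    (eH q (hX q d z)) (eH q (hY q d z)) z
  px : PW d.sx (d.W q) (lmH q d) (eH q (hX q d z)) (z ∈ S2a q d) z
  py : PW d.sy (d.W q) (muH q d) (eH q (hY q d z)) (z ∈ S2b q d) z

theorem h2f (hn : 1 ≤ n) (hc : HC n q) (h : PkOk q d)
    (ro : ∀ z : VV n, (LvY q d z → OY q d z) ∧ (LvX q d z → OX q d z))
    (rs : ∀ z : VV n,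
      (d.l₀ q + 285 / 100 * q.R ≤ d.l z.1 → Stf d.sx d.sy (d.W q) (lmH q d) (eH q (hX q d z))
        (1 / 100 * (q.σ / q.R)) (eH q 1) z) ∧
      (d.l₀ q + 285 / 100 * q.R ≤ d.l z.2 → Stf d.sy d.sx (d.W q) (muH q d) (eH q (hY q d z))
        (1 / 100 * (q.σ / q.R)) (eH q 1) z)) {z : VV n} (hz : z ∈ S2a q d ∪ S2b q d) :
    H2F q d z := by
  have hR := hc.inf.R0
  have h0 := hc.inf.σ0
  have m1 := mt₁ le_rfl hR h.rg
  have m2 := mt₂ le_rfl hR h.rg
  have ε1 : q.ε * n ≤ 1 / 2 := by rw [mul_comm]; exact hc.ε1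
  have s1 : ∀ A : Fin n → ℝ, 0 ≤ ss d.sx A z := fun A => m1.s0 (pj_x _) hc.ε0.le ε1 z A
  have s2 : ∀ A : Fin n → ℝ, 0 ≤ ss d.sy A z := fun A => m2.s0 (pj_y _) hc.ε0.le ε1 z A
  have hs : 0 < q.σ / q.R := div_pos h0 hR
  obtain ⟨x1, y1⟩ := hXY_ge hc h z
  have l0 : 1 / 100 * (q.σ / q.R) ≤ lmH q d z := by unfold lmH; nlinarith
  have mu0 : 1 / 100 * (q.σ / q.R) ≤ muH q d z := by unfold muH; nlinarith
  have l0' : 0 ≤ lmH q d z := le_trans (by positivity) l0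
  have mu0' : 0 ≤ muH q d z := le_trans (by positivity) mu0
  have ok := okx h hR
  have ot := oky h hR
  have sW := W_smS h hc.ε1
  have c := cm1 h.rg.sm₁ h.rg.sm₂ (fun x i j => ((h.rg.sy₁ x).apply i j).symm)
      (fun x i j => ((h.rg.sy₂ x).apply i j).symm)
  -- the slot `y`
  have Y : z ∈ S2a q d → z ∉ S2b q d →
      Own d.sy (d.W q) (muH q d) (eH q (hY q d z)) z := by
    intro a b
    have b' : d.l z.2 < d.l₀ q + 285 / 100 * q.R := not_le.1 b
    have h1 := P_lev hn hc.inf h a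
    refine own_y h hR hc.ε1 (show d.l z.2 < d.l₀ q + 3 * q.R by linarith) ((ro _).1 ?_)
    exact ⟨h1.1, h1.2, show d.l z.2 ≤ _ by linarith⟩
  have X : z ∈ S2b q d → z ∉ S2a q d →
      Own d.sx (d.W q) (lmH q d) (eH q (hX q d z)) z := by
    intro a b
    have b' : d.l z.1 < d.l₀ q + 285 / 100 * q.R := not_le.1 b
    have h1 := P_lev hn hc.inf h (x := z.2) a
    refine own_x h hR hc.ε1 (show d.l z.1 < d.l₀ q + 3 * q.R by linarith) ((ro _).2 ?_)
    exact ⟨h1.1, h1.2, show d.l z.1 ≤ _ by linarith⟩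
  have eX : eH q 1 ≤ eH q (hX q d z) := eH_mono zero_le_one x1 hs.le
  have eY : eH q 1 ≤ eH q (hY q d z) := eH_mono zero_le_one y1 hs.le
  by_cases a : z ∈ S2a q d
  · have S := (rs z).1 a
    by_cases b : z ∈ S2b q d
    · have T := (rs z).2 b
      refine ⟨S.pn l0' mu0' (eH_nn _ _) (eH_nn _ _) s1 s2 mu0 eY T.h ?_, S.pw l0' s1,
        T.pw mu0' s2⟩
      have h1 := T.o
      have h2 := (mul_nonneg mu0' (s2 fun i => d.sy.D i (d.W q) z)).trans (T.h _)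
      linarith
    · have T := Y a b
      exact ⟨S.pn l0' mu0' (eH_nn _ _) (eH_nn _ _) s1 s2 mu0 eY T.h T.o, S.pw l0' s1,
        T.pw mu0' s2 b⟩
  · have b : z ∈ S2b q d := hz.resolve_left a
    have S := (rs z).2 b
    have T := X b a
    exact ⟨S.pn' ok ot c sW mu0' l0' (eH_nn _ _) (eH_nn _ _) s1 s2 l0 eX T.h T.o,
      T.pw l0' s1 a, S.pw mu0' s2⟩

/-- **Row H2.** -/
theorem rowH2 (hn : 1 ≤ n) (r1 : RowO1 n) (r2 : RowO2 n) (r3 : RowO3 n) (rs : RowSS n) :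
    RowH2 n := by
  refine ((((evHC n).and r1).and (r2.and r3)).and rs).mono ?_
  rintro q ⟨⟨⟨hc, q1⟩, q2, q3⟩, qs⟩ d h
  have hR := hc.inf.R0
  have ro := row_O hc.inf h (q1 d h) (q2 d h) (q3 d h)
  have F : ∀ z, z ∈ S2a q d ∪ S2b q d → H2F q d z := fun z hz => h2f hn hc h ro (qs d h) hz
  have m1 := mt₁ le_rfl hR h.rg
  have m2 := mt₂ le_rfl hR h.rg
  have ε1 : q.ε * n ≤ 1 / 2 := by rw [mul_comm]; exact hc.ε1
  have hs : 0 < q.σ / q.R := div_pos hc.inf.σ0 hR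
  have cX : Continuous fun z => eH q (hX q d z) := by
    unfold eH
    exact continuous_const.mul ((continuous_const.mul (shX h).continuous).pow 2)
  have cY : Continuous fun z => eH q (hY q d z) := by
    unfold eH
    exact continuous_const.mul ((continuous_const.mul (shY h).continuous).pow 2)
  refine ⟨fun χ hχ hs' => ?_, fun z hz => ⟨(F z hz).px, (F z hz).py⟩⟩
  have key : ∀ S : Set (VV n), IsClosed S → S ⊆ S2a q d ∪ S2b q d → (∀ z, z ∉ S → χ z = 0) →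
      d.Zone q χ (mS d.sx d.sy (d.W q) χ (lmH q d) (muH q d) (fun z => eH q (hX q d z))
        fun z => eH q (hY q d z)) (cS d.sx d.sy (d.W q) χ (lmH q d) (muH q d)) := by
    intro S hS hSs h0
    exact zone_S (S := S) (v₁ := 0) (v₂ := 0) (okx h hR) (oky h hR) contDiffOn_const
      contDiffOn_const (W_smS h hc.ε1).contDiffOn hχ.contDiffOn hS h0
      (fun z _ A => m1.lo (pj_x _) hc.ε0.le ε1 z A) (fun z _ A => m2.lo (pj_y _) hc.ε0.le ε1 z A)
      (slm h).contDiffOn (smu h).contDiffOn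
      (fun z _ => by unfold lmH; have := (hXY_ge hc h z).1; positivity)
      (fun z _ => by unfold muH; have := (hXY_ge hc h z).2; positivity)
      cX.continuousOn cY.continuousOn fun z _ hz => (F z (hSs hz)).pn
  rcases hs' with h0 | h0
  · exact key _ (isClosed_le continuous_const (slx1 h).continuous) subset_union_left h0
  · exact key _ (isClosed_le continuous_const (sly1 h).continuous) subset_union_right h0

end Vale.Agent.P088.R2.H168.INF
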