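import Vale.Agent.P088.R2.H168.INF.Lvs

/-!
# P088, stage 3, zone INF: the slots of the data package
-/

open MeasureTheory Set Filter
open scoped ContDiff Topology Matrix

noncomputable section

namespace Vale.Agent.P088.R2.H168.INF

open Vale.Agent.P088.R2.H961.GW Vale.Agent.P088.R2.H960.W Vale.Agent.P088.R2.H644
open Vale.Agent.P088.R2.H551.E Vale.Agent.P088.LR Vale.Agent.P088.HY Vale.Agent.P088.R2.H475
open Vale.Agent.P088.R2.H31.EP Vale.Agent.P088.HY.T3 Vale.Agent.P088.HY.T4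

variable {n : ℕ}

theorem Mt.mk' (s : MF n) {ε R : ℝ} (hR : 0 < R) (sm : SmM s) (sy : ∀ x, (s x).IsSymm)
    (cl : ∀ i j, ∀ m ≤ 12, ∀ x, ‖iteratedFDeriv ℝ m (fun x => s x i j -
      (1 : Matrix (Fin n) (Fin n) ℝ) i j) x‖ ≤ ε * R⁻¹ ^ m)
    (h1 : ∀ x ∉ Eb (0 : V n) (2 * R), s x = 1) : Mt ε R s where
  sm := sm
  sy x i j := by
    have := sy x
    exact (Matrix.IsSymm.apply this i j).symm
  c0 i j x := by
    have := cl i j 0 (by norm_num) x
    simpa using this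
  c1 i j k x := by
    have h2 := cl i j 1 (by norm_num) x
    have e : fderiv ℝ (fun x => s x i j - (1 : Matrix (Fin n) (Fin n) ℝ) i j) x =
        fderiv ℝ (fun x => s x i j) x := fderiv_sub_const _
    rw [show (1 : ℕ) = 0 + 1 from rfl, ← norm_iteratedFDeriv_fderiv, norm_iteratedFDeriv_zero, e] at h2
    unfold pd
    have h3 := (fderiv ℝ (fun x => s x i j) x).le_opNorm (Pi.single k 1)
    have h4 : ‖(Pi.single k (1 : ℝ) : V n)‖ = 1 := by simp [Pi.norm_single]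
    rw [h4, mul_one] at h3
    rw [← Real.norm_eq_abs]
    refine h3.trans (h2.trans (le_of_eq ?_))
    rw [zero_add, pow_one, div_eq_mul_inv]
  of x hx := h1 x (by
    intro hc
    have h2 : HY.sq (x - 0) < (2 * R) ^ 2 := hc
    rw [sub_zero] at h2
    have h3 : √(HY.sq x) < 2 * R := by
      rw [Real.sqrt_lt' (by linarith)]
      exact h2
    linarith)

theorem mt₁ {K : ℕ} {ε M sg R kap Gs : ℝ} {s₁ s₂ : MF n} (hK : 12 ≤ K) (hR : 0 < R)
    (h : Rg K ε M sg R kap Gs s₁ s₂) : Mt ε R s₁ :=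
  Mt.mk' s₁ hR h.sm₁ h.sy₁ (fun i j m hm x => h.cl₁ i j m (hm.trans hK) x) fun x hx => (h.of x hx).1

theorem mt₂ {K : ℕ} {ε M sg R kap Gs : ℝ} {s₁ s₂ : MF n} (hK : 12 ≤ K) (hR : 0 < R)
    (h : Rg K ε M sg R kap Gs s₁ s₂) : Mt ε R s₂ :=
  Mt.mk' s₂ hR h.sm₂ h.sy₂ (fun i j m hm x => h.cl₂ i j m (hm.trans hK) x) fun x hx => (h.of x hx).2

theorem fr0_one {s : MF n} {ε R : ℝ} (m : Mt ε R s) : Fr0 (fun _ => (1 : ℝ)) s univ where
  op := isOpen_univ
  rp _ _ := one_pos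
  rs := contDiffOn_const
  ss i j := (m.sm i j).contDiffOn
  sy := m.sy

theorem ok_x {s₁ s₂ : MF n} {ε R : ℝ} (m₁ : Mt ε R s₁) (m₂ : Mt ε R s₂) :
    (slx (fun _ => (1 : ℝ)) s₁).Ok univ 1 := by
  have := okx (fr0_one m₁) (fr0_one m₂) isOpen_univ (by simp)
  rwa [tht_one] at this

theorem ok_y {s₁ s₂ : MF n} {ε R : ℝ} (m₁ : Mt ε R s₁) (m₂ : Mt ε R s₂) :
    (sly (fun _ => (1 : ℝ)) s₂).Ok univ 1 := by
  have := oky (fr0_one m₁) (fr0_one m₂) isOpen_univ (by simp)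
  rwa [tht_one] at this

end Vale.Agent.P088.R2.H168.INF
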