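import Vale.Agent.P088.R2.H31.EP.Pack

/-!
# P088, stage 3, zone INF: the rows used by the leaves iS and iH
-/

open Set Filter MeasureTheory
open scoped ContDiff Topology Matrix

noncomputable section

namespace Vale.Agent.P088.R2.H168.INF

open Vale.Agent.P088.LR Vale.Agent.P088.HY Vale.Agent.P088.R2.H31.EP

variable {n : ℕ}

/-- The weight without `Θ` and without the retraction. -/
def W0 (q : Cst) (d : Pk n) : VV n → ℝ := WW (d.F q) d.l (gi d.s₁)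

/-- The stiff part. -/
def st2 (q : Cst) (d : Pk n) (z : VV n) : ℝ := st (d.F q) (d.u q z) (d.r2 z)

/-- **Row RHO** (leaf iS): the weight is separable up to a negligible function. -/
def RowRho (n : ℕ) : Prop := EvC fun q => ∀ d : Pk n, PkOk q d → ∀ z : VV n,
  d.l z.1 ≤ d.l₀ q + 31 / 10 * q.R → d.l z.2 ≤ d.l₀ q + 31 / 10 * q.R →
  d.l z.1 + d.l z.2 + 4 / 5 * √(q.R ^ 2 + HY.sq (z.1 - z.2)) ≤ -(5 / 1000) * (q.R / q.σ) →
  ∀ j, 1 ≤ j → j ≤ 4 →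
    ‖iteratedFDeriv ℝ j (fun z => W0 q d z - q.M₀ * (d.l z.1 + d.l z.2)) z‖ ≤ q.R⁻¹ ^ 8

/-- **Row ST** (leaf iH): the crude bound of the stiff part. -/
def RowSt (n : ℕ) : Prop := EvC fun q => ∀ d : Pk n, PkOk q d → ∀ z : VV n,
  d.l z.1 ≤ d.l₀ q + 32 / 10 * q.R → d.l z.2 ≤ d.l₀ q + 32 / 10 * q.R →
  ∀ j, 1 ≤ j → j ≤ 4 → ‖iteratedFDeriv ℝ j (st2 q d) z‖ ≤ Real.exp (8 * (q.R / q.σ))

/-- **Row CR** (leaf iH): the crude bound of the weight composed with the retraction. -/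
def RowCr (n : ℕ) : Prop := EvC fun q => ∀ d : Pk n, PkOk q d → ∀ z : VV n,
  ∀ j, 1 ≤ j → j ≤ 4 → ‖iteratedFDeriv ℝ j (fun z => W0 q d (d.P z.1, d.P z.2)) z‖ ≤
    Real.exp (q.C₄ * (q.R / q.σ) / 100)

end Vale.Agent.P088.R2.H168.INF
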