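import Vale.Agent.P088.R2.H168.INF.Half
import Vale.Agent.P088.R2.H168.INF.Spec
import Vale.Agent.P088.R2.H475.INF.LevD
import Vale.Agent.P088.R2.H960.W.Res

/-!
# P088, stage 3, zone INF: the level function in the slots
-/

open MeasureTheory Set Filter
open scoped ContDiff Topology Matrix

noncomputable section

namespace Vale.Agent.P088.R2.H168.INF

open Vale.Agent.P088.R2.H961.GW Vale.Agent.P088.R2.H960.W Vale.Agent.P088.R2.H644
open Vale.Agent.P088.R2.H551.E Vale.Agent.P088.LR Vale.Agent.P088.HY Vale.Agent.P088.R2.H475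

variable {n : ℕ} {E : Type*} [NormedAddCommGroup E] [NormedSpace ℝ E]

/-- A slot which sees the projection `π`, with the tensor `s`. -/
structure Pj (σ : Sl E (Fin n)) (π : E → V n) (s : MF n) : Prop where
  cπ : ContDiff ℝ ∞ π
  D : ∀ (i : Fin n) (g : V n → ℝ) (z : E), DifferentiableAt ℝ g (π z) →
    σ.D i (fun z => g (π z)) z = pd i g (π z)
  s : ∀ i j z, σ.s i j z = s (π z) i j
  ρ : ∀ z, σ.ρ z = 1
  k : ∀ i z, σ.k i z = 0

theorem pj_x (s : MF n) : Pj (slx (fun _ => (1 : ℝ)) s) Prod.fst s where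
  cπ := contDiff_fst
  D i g z hg := by rw [Dx_fst hg]; ring
  s _ _ _ := rfl
  ρ _ := rfl
  k i z := by simp [slx, pd]

theorem pj_y (s : MF n) : Pj (sly (fun _ => (1 : ℝ)) s) Prod.snd s where
  cπ := contDiff_snd
  D i g z hg := by rw [Dy_snd hg]; ring
  s _ _ _ := rfl
  ρ _ := rfl
  k i z := by simp [sly, pd]

/-- A tensor near the identity, equal to it off `|x| ≤ 2 R`. -/
structure Mt (ε R : ℝ) (s : MF n) : Prop where
  sm : SmM s
  sy : ∀ x i j, s x i j = s x j i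
  c0 : ∀ i j x, |s x i j - (1 : Matrix (Fin n) (Fin n) ℝ) i j| ≤ ε
  c1 : ∀ i j k x, |pd k (fun x => s x i j) x| ≤ ε / R
  of : ∀ x, 2 * R < √(HY.sq x) → s x = 1

section sums

variable {A : Fin n → ℝ} {S : Fin n → Fin n → ℝ} {ε : ℝ}

theorem a1_sq (A : Fin n → ℝ) : (∑ i, |A i|) ^ 2 ≤ n * ∑ i, A i ^ 2 := by
  have h := sq_sum_le_card_mul_sum_sq (s := Finset.univ) (f := fun i : Fin n => |A i|)
  simpa [sq_abs] using h

theorem quad_le (c : ℝ) {f : Fin n → Fin n → ℝ} (hf : ∀ i j, |f i j| ≤ c) (A : Fin n → ℝ) :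
    |∑ i, ∑ j, f i j * A i * A j| ≤ c * (∑ i, |A i|) ^ 2 := by
  have e : c * (∑ i, |A i|) ^ 2 = ∑ i, ∑ j, c * |A i| * |A j| := by
    rw [pow_two, Finset.sum_mul_sum, Finset.mul_sum]
    refine Finset.sum_congr rfl fun i _ => ?_
    rw [Finset.mul_sum]
    exact Finset.sum_congr rfl fun j _ => by ring
  rw [e]
  refine (Finset.abs_sum_le_sum_abs _ _).trans (Finset.sum_le_sum fun i _ =>
    (Finset.abs_sum_le_sum_abs _ _).trans (Finset.sum_le_sum fun j _ => ?_))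
  rw [abs_mul, abs_mul]
  exact mul_le_mul_of_nonneg_right (mul_le_mul_of_nonneg_right (hf i j) (abs_nonneg _))
    (abs_nonneg _)

theorem one_quad (A : Fin n → ℝ) :
    ∑ i, ∑ j, (1 : Matrix (Fin n) (Fin n) ℝ) i j * A i * A j = ∑ i, A i ^ 2 := by
  refine Finset.sum_congr rfl fun i _ => ?_
  rw [Finset.sum_eq_single i]
  · simp [pow_two]
  · intro j _ hj
    simp [Matrix.one_apply_ne' hj]
  · simp

/-- `s(A, A)` near `|A|²`. -/
theorem quad_near (hS : ∀ i j, |S i j - (1 : Matrix (Fin n) (Fin n) ℝ) i j| ≤ ε) (he : 0 ≤ ε)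
    (A : Fin n → ℝ) : |∑ i, ∑ j, S i j * A i * A j - ∑ i, A i ^ 2| ≤ ε * n * ∑ i, A i ^ 2 := by
  have e : ∑ i, ∑ j, S i j * A i * A j - ∑ i, A i ^ 2 =
      ∑ i, ∑ j, (S i j - (1 : Matrix (Fin n) (Fin n) ℝ) i j) * A i * A j := by
    rw [← one_quad A, ← Finset.sum_sub_distrib]
    refine Finset.sum_congr rfl fun i _ => ?_
    rw [← Finset.sum_sub_distrib]
    exact Finset.sum_congr rfl fun j _ => by ring
  rw [e]
  refine (quad_le ε hS A).trans ?_
  have := mul_le_mul_of_nonneg_left (a1_sq A) he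
  linarith

/-- `|s A|²` near `|A|²`. -/
theorem sqv_ge (hS : ∀ i j, |S i j - (1 : Matrix (Fin n) (Fin n) ℝ) i j| ≤ ε) (he : 0 ≤ ε)
    (A : Fin n → ℝ) : (1 - 2 * (ε * n)) * ∑ i, A i ^ 2 ≤ ∑ j, (∑ i, S i j * A i) ^ 2 := by
  have e : ∀ j, ∑ i, S i j * A i = A j + ∑ i, (S i j - (1 : Matrix (Fin n) (Fin n) ℝ) i j) * A i := by
    intro j
    have h1 : ∑ i, (1 : Matrix (Fin n) (Fin n) ℝ) i j * A i = A j := by
      rw [Finset.sum_eq_single j]
      · simp
      · intro i _ hi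
        simp [Matrix.one_apply_ne hi]
      · simp
    have h2 : ∑ i, S i j * A i = ∑ i, (1 : Matrix (Fin n) (Fin n) ℝ) i j * A i +
        ∑ i, (S i j - (1 : Matrix (Fin n) (Fin n) ℝ) i j) * A i := by
      rw [← Finset.sum_add_distrib]
      exact Finset.sum_congr rfl fun i _ => by ring
    rw [h2, h1]
  have b : ∀ j, |∑ i, (S i j - (1 : Matrix (Fin n) (Fin n) ℝ) i j) * A i| ≤ ε * ∑ i, |A i| := by
    intro j
    rw [Finset.mul_sum]
    refine (Finset.abs_sum_le_sum_abs _ _).trans (Finset.sum_le_sum fun i _ => ?_)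
    rw [abs_mul]
    exact mul_le_mul_of_nonneg_right (hS i j) (abs_nonneg _)
  have h1 : ∀ j, A j ^ 2 - 2 * |A j| * (ε * ∑ i, |A i|) ≤ (∑ i, S i j * A i) ^ 2 := by
    intro j
    rw [e j]
    set r := ∑ i, (S i j - (1 : Matrix (Fin n) (Fin n) ℝ) i j) * A i
    have h2 : -(|A j| * (ε * ∑ i, |A i|)) ≤ A j * r := by
      have := neg_abs_le (A j * r)
      rw [abs_mul] at this
      have h3 := mul_le_mul_of_nonneg_left (b j) (abs_nonneg (A j))
      linarith
    nlinarith [sq_nonneg r]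
  have h2 : ∑ j, (A j ^ 2 - 2 * |A j| * (ε * ∑ i, |A i|)) ≤ ∑ j, (∑ i, S i j * A i) ^ 2 :=
    Finset.sum_le_sum fun j _ => h1 j
  rw [Finset.sum_sub_distrib, ← Finset.sum_mul, ← Finset.mul_sum] at h2
  have h3 := mul_le_mul_of_nonneg_left (a1_sq A) he
  nlinarith

end sums

section slot

variable {σ : Sl E (Fin n)} {π : E → V n} {s : MF n} {U : Set E} {θ : E → ℝ} {ε R : ℝ} {z : E}
  {g : V n → ℝ}

/-- Ellipticity. -/
theorem Mt.near (m : Mt ε R s) (p : Pj σ π s) (he : 0 ≤ ε) (z : E) (A : Fin n → ℝ) :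
    |ss σ A z - ∑ i, A i ^ 2| ≤ ε * n * ∑ i, A i ^ 2 := by
  have h := quad_near (S := fun i j => s (π z) i j) (fun i j => m.c0 i j (π z)) he A
  unfold ss
  simp only [p.s]
  exact h

theorem Mt.lo (m : Mt ε R s) (p : Pj σ π s) (he : 0 ≤ ε) (hn : ε * n ≤ 1 / 2) (z : E)
    (A : Fin n → ℝ) : ∑ i, A i ^ 2 ≤ 2 * ss σ A z := by
  have h := (abs_le.1 (m.near p he z A)).1
  have h0 : 0 ≤ ∑ i, A i ^ 2 := Finset.sum_nonneg fun i _ => sq_nonneg _
  nlinarith

theorem Mt.up (m : Mt ε R s) (p : Pj σ π s) (he : 0 ≤ ε) (hn : ε * n ≤ 1 / 2) (z : E)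
    (A : Fin n → ℝ) : ss σ A z ≤ 2 * ∑ i, A i ^ 2 := by
  have h := (abs_le.1 (m.near p he z A)).2
  have h0 : 0 ≤ ∑ i, A i ^ 2 := Finset.sum_nonneg fun i _ => sq_nonneg _
  nlinarith

theorem Mt.s0 (m : Mt ε R s) (p : Pj σ π s) (he : 0 ≤ ε) (hn : ε * n ≤ 1 / 2) (z : E)
    (A : Fin n → ℝ) : 0 ≤ ss σ A z := by
  have h := m.lo p he hn z A
  have h0 : 0 ≤ ∑ i, A i ^ 2 := Finset.sum_nonneg fun i _ => sq_nonneg _
  linarith

theorem Pj.DL (p : Pj σ π s) (hg : ContDiff ℝ ∞ g) (i : Fin n) :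
    σ.D i (fun z => g (π z)) = fun z => pd i g (π z) :=
  funext fun z => p.D i g z (hg.differentiable (by simp) _)

theorem cd_pd (hg : ContDiff ℝ ∞ g) (i : Fin n) : ContDiff ℝ ∞ (pd i g) := by
  unfold pd
  exact (hg.fderiv_right (m := ∞) (by simp)).clm_apply contDiff_const

theorem Pj.DDL (p : Pj σ π s) (hg : ContDiff ℝ ∞ g) (i j : Fin n) (z : E) :
    σ.D j (σ.D i fun z => g (π z)) z = pd j (pd i g) (π z) := by
  rw [p.DL hg i]
  exact p.D j _ z ((cd_pd hg i).differentiable (by simp) _)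

theorem Pj.Ds (p : Pj σ π s) (hs : SmM s) (k i j : Fin n) (z : E) :
    σ.D k (σ.s i j) z = pd k (fun x => s x i j) (π z) := by
  have e : σ.s i j = fun z => (fun x => s x i j) (π z) := funext fun z => p.s i j z
  rw [e]
  exact p.D k _ z ((hs i j).differentiable (by simp) _)

theorem Pj.η (p : Pj σ π s) (i : Fin n) (z : E) : σ.η i z = 0 := by
  have : σ.ρ = fun _ => (1 : ℝ) := funext p.ρ
  unfold Sl.η
  rw [this]
  simp

/-- The Hessian of a function of one variable. -/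
theorem Pj.HH' (p : Pj σ π s) (m : Mt ε R s) (hg : ContDiff ℝ ∞ g) (A : Fin n → ℝ) (z : E)
    {h G d : ℝ} (he : 0 ≤ ε) (he1 : ε ≤ 1) (hR : 0 < R) (h0 : 0 ≤ h) (hd0 : 0 ≤ d) (hG : 0 ≤ G)
    (hh : ∀ U : V n, h * HY.sq U ≤ ∑ i, ∑ j, U i * U j * pd j (pd i g) (π z))
    (hg1 : ∀ k, |pd k g (π z)| ≤ G) (hd : ∀ k i j, |pd k (fun x => s x i j) (π z)| ≤ d / R) :
    (h * (1 - 2 * (ε * n)) - 3 * (n : ℝ) ^ 3 * (d / R * G)) * ∑ i, A i ^ 2 ≤
      INF.HH σ (fun z => g (π z)) z A := by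
  set S : Fin n → Fin n → ℝ := fun i j => s (π z) i j with hS
  have sS : ∀ i j, |S i j| ≤ 2 := by
    intro i j
    have h1 := m.c0 i j (π z)
    have h2 : |(1 : Matrix (Fin n) (Fin n) ℝ) i j| ≤ 1 := by
      rw [Matrix.one_apply]; split_ifs <;> simp
    have h3 : |S i j| ≤ |s (π z) i j - (1 : Matrix (Fin n) (Fin n) ℝ) i j| +
        |(1 : Matrix (Fin n) (Fin n) ℝ) i j| := by
      refine le_trans (le_of_eq ?_) (abs_add_le _ _)
      congr 1
      simp only [hS]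
      ring
    linarith
  have sy : ∀ i j, S i j = S j i := fun i j => m.sy _ i j
  set H : Fin n → Fin n → ℝ := fun j k => pd j (pd k g) (π z) with hH
  set a : Fin n → ℝ := fun k => pd k g (π z) with ha
  set dS : Fin n → Fin n → Fin n → ℝ := fun k i j => pd k (fun x => s x i j) (π z) with hdS
  set v : Fin n → ℝ := fun j => ∑ i, S i j * A i with hv
  have eH : ∀ i l, σ.Hc (fun z => g (π z)) i l z =
      (∑ j, ∑ k, S i j * S k l * ((H j k + H k j) / 2)) +
        ∑ j, ∑ k, 1 / 2 * ((S i j * dS j k l + S l j * dS j k i) * a k - S j k * a j * dS k i l) := by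
    intro i l
    unfold Sl.Hc
    simp only [p.η, p.DL hg, fun k => p.DL (cd_pd hg k), p.Ds m.sm, p.s, Finset.mul_sum,
      ← Finset.sum_add_distrib]
    refine Finset.sum_congr rfl fun j _ => Finset.sum_congr rfl fun k _ => ?_
    simp only [hS, hH, ha, hdS]
    ring
  have e1 : ∑ i, ∑ l, (∑ j, ∑ k, S i j * S k l * ((H j k + H k j) / 2)) * A i * A l =
      ∑ j, ∑ k, v j * v k * H k j := by
    have e2 : ∑ i, ∑ l, (∑ j, ∑ k, S i j * S k l * ((H j k + H k j) / 2)) * A i * A l =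
        ∑ i, ∑ j, ∑ k, ∑ l, S i j * S k l * ((H j k + H k j) / 2) * A i * A l := by
      rw [sum_rot]
      refine Finset.sum_congr rfl fun i _ => Finset.sum_congr rfl fun l _ => ?_
      rw [Finset.sum_mul, Finset.sum_mul]
      refine Finset.sum_congr rfl fun j _ => ?_
      rw [Finset.sum_mul, Finset.sum_mul]
    have e3 : ∑ i, ∑ j, ∑ k, ∑ l, S i j * S k l * ((H j k + H k j) / 2) * A i * A l =
        ∑ j, ∑ k, v j * v k * ((H j k + H k j) / 2) := by
      rw [Finset.sum_comm]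
      refine Finset.sum_congr rfl fun j _ => ?_
      rw [Finset.sum_comm]
      refine Finset.sum_congr rfl fun k _ => ?_
      have : v j * v k * ((H j k + H k j) / 2) =
          (∑ i, S i j * A i) * ((∑ l, S k l * A l) * ((H j k + H k j) / 2)) := by
        have h1 : v k = ∑ l, S k l * A l := Finset.sum_congr rfl fun l _ => by rw [sy]
        rw [← h1]
        simp only [hv]
        ring
      rw [this, Finset.sum_mul]
      refine Finset.sum_congr rfl fun i _ => ?_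
      rw [Finset.sum_mul, Finset.mul_sum]
      exact Finset.sum_congr rfl fun l _ => by ring
    rw [e2, e3]
    have e4 : ∑ j, ∑ k, v j * v k * H j k = ∑ j, ∑ k, v j * v k * H k j := by
      rw [Finset.sum_comm]
      exact Finset.sum_congr rfl fun j _ => Finset.sum_congr rfl fun k _ => by ring
    have e5 : ∑ j, ∑ k, v j * v k * ((H j k + H k j) / 2) =
        1 / 2 * ∑ j, ∑ k, v j * v k * H j k + 1 / 2 * ∑ j, ∑ k, v j * v k * H k j := by
      simp only [Finset.mul_sum, ← Finset.sum_add_distrib]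
      exact Finset.sum_congr rfl fun j _ => Finset.sum_congr rfl fun k _ => by ring
    rw [e5, e4]
    ring
  have e6 : INF.HH σ (fun z => g (π z)) z A = (∑ j, ∑ k, v j * v k * H k j) +
      ∑ i, ∑ l, (∑ j, ∑ k, 1 / 2 * ((S i j * dS j k l + S l j * dS j k i) * a k -
        S j k * a j * dS k i l)) * A i * A l := by
    unfold INF.HH
    rw [← e1, ← Finset.sum_add_distrib]
    refine Finset.sum_congr rfl fun i _ => ?_
    rw [← Finset.sum_add_distrib]
    refine Finset.sum_congr rfl fun l _ => ?_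
    rw [eH]
    ring
  have b1 : |∑ i, ∑ l, (∑ j, ∑ k, 1 / 2 * ((S i j * dS j k l + S l j * dS j k i) * a k -
        S j k * a j * dS k i l)) * A i * A l| ≤
      ((n : ℝ) ^ 2 * (3 * (d / R * G))) * (∑ i, |A i|) ^ 2 := by
    refine quad_le _ (fun i l => ?_) A
    have b2 : ∀ j k, |1 / 2 * ((S i j * dS j k l + S l j * dS j k i) * a k -
        S j k * a j * dS k i l)| ≤ 3 * (d / R * G) := by
      intro j k
      have d0 : 0 ≤ d / R := by positivity
      have t : ∀ x y w : ℝ, |x| ≤ 2 → |y| ≤ d / R → |w| ≤ G → |x * y * w| ≤ 2 * (d / R * G) := by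
        intro x y w hx hy hw
        rw [abs_mul, abs_mul]
        have h1 : |x| * |y| ≤ 2 * (d / R) := mul_le_mul hx hy (abs_nonneg _) (by norm_num)
        have h2 := mul_le_mul h1 hw (abs_nonneg _) (by positivity)
        linarith
      have t1 := t _ _ _ (sS i j) (hd j k l) (hg1 k)
      have t2 := t _ _ _ (sS l j) (hd j k i) (hg1 k)
      have t3 := t _ _ _ (sS j k) (hd k i l) (hg1 j)
      have e : 1 / 2 * ((S i j * dS j k l + S l j * dS j k i) * a k - S j k * a j * dS k i l) =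
          1 / 2 * (S i j * dS j k l * a k + S l j * dS j k i * a k - S j k * dS k i l * a j) := by
        ring
      rw [e, abs_mul, abs_of_pos (by norm_num : (0 : ℝ) < 1 / 2)]
      have h1 := abs_sub (S i j * dS j k l * a k + S l j * dS j k i * a k) (S j k * dS k i l * a j)
      have h2 := abs_add_le (S i j * dS j k l * a k) (S l j * dS j k i * a k)
      linarith
    calc |∑ j, ∑ k, 1 / 2 * ((S i j * dS j k l + S l j * dS j k i) * a k -
        S j k * a j * dS k i l)| ≤ ∑ j : Fin n, ∑ k : Fin n, 3 * (d / R * G) :=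
          (Finset.abs_sum_le_sum_abs _ _).trans (Finset.sum_le_sum fun j _ =>
            (Finset.abs_sum_le_sum_abs _ _).trans (Finset.sum_le_sum fun k _ => b2 j k))
      _ = (n : ℝ) ^ 2 * (3 * (d / R * G)) := by
          simp only [Finset.sum_const, Finset.card_univ, Fintype.card_fin, nsmul_eq_mul]
          ring
  have b3 := hh v
  have b4 := sqv_ge (S := S) (fun i j => m.c0 i j (π z)) he A
  have b5 : (1 - 2 * (ε * n)) * ∑ i, A i ^ 2 ≤ HY.sq v := b4
  have b6 := mul_le_mul_of_nonneg_left b5 h0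
  have b7 := (abs_le.1 b1).1
  have d0 : 0 ≤ d / R * G := by positivity
  have b8 : ((n : ℝ) ^ 2 * (3 * (d / R * G))) * (∑ i, |A i|) ^ 2 ≤
      ((n : ℝ) ^ 2 * (3 * (d / R * G))) * (n * ∑ i, A i ^ 2) :=
    mul_le_mul_of_nonneg_left (a1_sq A) (by positivity)
  have b9 : h * HY.sq v ≤ ∑ j, ∑ k, v j * v k * H k j := b3
  rw [e6]
  linarith

theorem Pj.HH (p : Pj σ π s) (m : Mt ε R s) (hg : ContDiff ℝ ∞ g) (A : Fin n → ℝ) (z : E)
    {h G : ℝ} (he : 0 ≤ ε) (he1 : ε ≤ 1) (hR : 0 < R) (h0 : 0 ≤ h) (hG : 0 ≤ G)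
    (hh : ∀ U : V n, h * HY.sq U ≤ ∑ i, ∑ j, U i * U j * pd j (pd i g) (π z))
    (hg1 : ∀ k, |pd k g (π z)| ≤ G) (hd : ∀ k i j, |pd k (fun x => s x i j) (π z)| ≤ ε / R) :
    (h * (1 - 2 * (ε * n)) - 3 * (n : ℝ) ^ 3 * (ε / R * G)) * ∑ i, A i ^ 2 ≤
      INF.HH σ (fun z => g (π z)) z A := p.HH' m hg A z he he1 hR h0 he hG hh hg1 hd

/-- **(V1) Convexity of the level in the slot.** -/
theorem lev_HH {sg kap Gs : ℝ} (p : Pj σ π s) (m : Mt ε R s) (hn : 1 ≤ n) (h0 : 0 < sg)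
    (h1 : sg ≤ 1 / 5000) (hR : 0 < R) (he : 0 ≤ ε) (he1 : ε * n ≤ 1 / 100)
    (he2 : (n : ℝ) ^ 3 * ε ≤ sg / 1200) (z : E) (A : Fin n → ℝ) :
    1 / 50 * (sg / R) * ss σ A z ≤ INF.HH σ (fun z => levG n sg R kap Gs (π z)) z A := by
  have hg : ContDiff ℝ ∞ (levG n sg R kap Gs) := levG_smooth h0 h1
  have hn' : (1 : ℝ) ≤ n := by exact_mod_cast hn
  have ε1 : ε ≤ 1 := by nlinarith
  have a0 : 0 ≤ ∑ i, A i ^ 2 := Finset.sum_nonneg fun i _ => sq_nonneg _
  have c0 : 0 < sg / R := by positivity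
  have hh : ∀ V : V n, 3 / 100 * (sg / R) * HY.sq V ≤
      ∑ i, ∑ j, V i * V j * pd j (pd i (levG n sg R kap Gs)) (π z) := fun V =>
    (hess_levG h0 h1 hR (π z) V).1
  have up := (abs_le.1 (m.near p he z A)).2
  have u2 : ss σ A z ≤ 101 / 100 * ∑ i, A i ^ 2 := by nlinarith
  have key : ∀ G d : ℝ, 0 ≤ G → 0 ≤ d → d ≤ ε → (n : ℝ) ^ 3 * (d * G) ≤ sg / 600 →
      (3 / 100 * (sg / R) * (1 - 2 * (ε * n)) - 3 * (n : ℝ) ^ 3 * (d / R * G)) * ∑ i, A i ^ 2 ≤
        INF.HH σ (fun z => levG n sg R kap Gs (π z)) z A →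
      1 / 50 * (sg / R) * ss σ A z ≤ INF.HH σ (fun z => levG n sg R kap Gs (π z)) z A := by
    intro G d hG hd hdε hb h
    refine le_trans ?_ h
    have k1 : 3 * (n : ℝ) ^ 3 * (d / R * G) ≤ 1 / 200 * (sg / R) := by
      have e1 : 3 * (n : ℝ) ^ 3 * (d / R * G) = 3 * ((n : ℝ) ^ 3 * (d * G)) / R := by
        field_simp
      have e2 : 1 / 200 * (sg / R) = 3 * (sg / 600) / R := by
        field_simp
        norm_num
      rw [e1, e2]
      exact div_le_div_of_nonneg_right (by linarith) hR.le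
    have k2 : 98 / 100 ≤ 1 - 2 * (ε * n) := by linarith
    have k3 : 3 / 100 * (sg / R) * (98 / 100) ≤ 3 / 100 * (sg / R) * (1 - 2 * (ε * n)) :=
      mul_le_mul_of_nonneg_left k2 (by positivity)
    have k4 : 1 / 50 * (sg / R) * ss σ A z ≤ 1 / 50 * (sg / R) * (101 / 100 * ∑ i, A i ^ 2) :=
      mul_le_mul_of_nonneg_left u2 (by positivity)
    have k5 : 0 ≤ sg / R * ∑ i, A i ^ 2 := by positivity
    nlinarith
  by_cases hx : 2 * R < √(HY.sq (π z))
  · -- flat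
    have hd : ∀ k i j, |pd k (fun x => s x i j) (π z)| ≤ (0 : ℝ) / R := by
      intro k i j
      have h2 : (fun x => s x i j) =ᶠ[𝓝 (π z)] fun _ => (1 : Matrix (Fin n) (Fin n) ℝ) i j := by
        have h3 : {x : V n | 2 * R < √(HY.sq x)} ∈ 𝓝 (π z) :=
          (isOpen_lt continuous_const contDiff_sq.continuous.sqrt).mem_nhds hx
        filter_upwards [h3] with x hx
        rw [m.of x hx]
      unfold pd
      rw [h2.fderiv_eq]
      simp
    set G := √(∑ i, pd i (levG n sg R kap Gs) (π z) ^ 2) with hG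
    have g1 : ∀ k, |pd k (levG n sg R kap Gs) (π z)| ≤ G := fun k => by
      refine Real.abs_le_sqrt ?_
      exact Finset.single_le_sum (f := fun i => pd i (levG n sg R kap Gs) (π z) ^ 2)
        (fun i _ => sq_nonneg _) (Finset.mem_univ k)
    have m' : Mt (n := n) ε R s := m
    refine key G 0 (Real.sqrt_nonneg _) le_rfl he (by simp; positivity) ?_
    have hc : ∀ i j, |s (π z) i j - (1 : Matrix (Fin n) (Fin n) ℝ) i j| ≤ 0 := fun i j => by
      rw [m.of _ hx]; simp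
    have := Pj.HH' p m hg A z he ε1 hR (h := 3 / 100 * (sg / R)) (d := 0) (by positivity) le_rfl
      (Real.sqrt_nonneg _) hh g1 hd
    exact this
  · -- near
    have hl : levG n sg R kap Gs (π z) ≤ lam0 R kap Gs + 5 * R := by
      by_contra hc
      exact hx (en_gt_of_levG (kap := kap) (Gs := Gs) hn h0 h1 hR (by linarith [not_le.1 hc]))
    have h2 := grad_levG_le' h0 h1 hR hl
    have g1 : ∀ k, |pd k (levG n sg R kap Gs) (π z)| ≤ 2 := fun k => by
      refine abs_le_of_sq_le_sq ?_ (by norm_num)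
      have := Finset.single_le_sum (f := fun i => pd i (levG n sg R kap Gs) (π z) ^ 2)
        (fun i _ => sq_nonneg _) (Finset.mem_univ k)
      beta_reduce at this
      linarith
    refine key 2 ε (by norm_num) he le_rfl (by linarith) ?_
    exact p.HH m hg A z he ε1 hR (by positivity) (by norm_num) hh g1 fun k i j => m.c1 i j k _

/-- The set where the level is quadratic and the metric flat. -/
def Fl (π : E → V n) (sg R kap Gs : ℝ) : Set E :=
  {z | lam0 R kap Gs + 21 / 20 * R < levG n sg R kap Gs (π z)}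

section flat

variable {sg kap Gs : ℝ}

theorem Fl_open (p : Pj σ π s) (h0 : 0 < sg) (h1 : sg ≤ 1 / 5000) :
    IsOpen (Fl π sg R kap Gs) :=
  isOpen_lt continuous_const ((levG_smooth h0 h1).continuous.comp p.cπ.continuous)

theorem Fl_th (h0 : 0 < sg) (h1 : sg ≤ 1 / 5000) (hR : 0 < R) {x : V n}
    (h : lam0 R kap Gs + 21 / 20 * R < levG n sg R kap Gs x) : th1 sg ≤ HY.sq (wR n sg R x) := by
  refine th1_le_of_gg h0 h1 ?_
  rw [levG_eq] at h
  by_contra hc
  have := mul_lt_mul_of_pos_left (not_le.1 hc) hR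
  nlinarith

theorem Fl_pd (h0 : 0 < sg) (h1 : sg ≤ 1 / 5000) (hR : 0 < R) {x : V n}
    (h : lam0 R kap Gs + 21 / 20 * R < levG n sg R kap Gs x) (i : Fin n) :
    pd i (levG n sg R kap Gs) x = wR n sg R x i := by
  rw [pd_levG h0 h1 hR, pp_one h0 h1 (Fl_th h0 h1 hR h), one_mul]

theorem Fl_s (m : Mt ε R s) (hn : 1 ≤ n) (h0 : 0 < sg) (h1 : sg ≤ 1 / 5000) (hR : 0 < R)
    {x : V n} (h : lam0 R kap Gs + 21 / 20 * R < levG n sg R kap Gs x) : s x = 1 :=
  m.of x (en_gt_of_levG hn h0 h1 hR h.le)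

theorem pd_wR (j k : Fin n) (x : V n) :
    pd k (fun x => wR n sg R x j) x = sg / R * (if j = k then 1 else 0) := by
  have e : (fun x : V n => wR n sg R x j) = fun x => wv n sg (R⁻¹ • x) j := rfl
  have hd : Differentiable ℝ fun y : V n => wv n sg y j := fun y => (fd_wv sg j y).differentiableAt
  rw [e, pd_scale hd]
  unfold pd
  rw [(fd_wv sg j _).fderiv]
  simp only [_root_.smul_apply, smul_eq_mul, proj_single]
  ring

theorem cd_wR (j : Fin n) : ContDiff ℝ ∞ fun x : V n => wR n sg R x j := by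
  have h1 : ContDiff ℝ ∞ fun x : V n => wv n sg (R⁻¹ • x) :=
    (contDiff_wv sg).comp (contDiff_const_smul R⁻¹)
  exact contDiff_pi.1 h1 j

variable (p : Pj σ π s) (m : Mt ε R s) (ok : σ.Ok univ θ) (hn : 1 ≤ n) (h0 : 0 < sg)
  (h1 : sg ≤ 1 / 5000) (hR : 0 < R)

include p m hn h0 h1 hR

theorem Fl_D {z : E} (hz : z ∈ Fl π sg R kap Gs) (i : Fin n) :
    σ.D i (fun z => levG n sg R kap Gs (π z)) z = wR n sg R (π z) i := by
  rw [p.DL (levG_smooth h0 h1)]
  exact Fl_pd h0 h1 hR hz i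

theorem Fl_Ds {z : E} (hz : z ∈ Fl π sg R kap Gs) (k i j : Fin n) : σ.D k (σ.s i j) z = 0 := by
  have e : σ.s i j =ᶠ[𝓝 z] fun _ => (1 : Matrix (Fin n) (Fin n) ℝ) i j := by
    filter_upwards [(Fl_open (kap := kap) (Gs := Gs) p h0 h1).mem_nhds hz] with w hw
    rw [p.s, Fl_s m hn h0 h1 hR hw]
  rw [D_congr_nhds σ e, D_const]

theorem Fl_sz {z : E} (hz : z ∈ Fl π sg R kap Gs) (i j : Fin n) :
    σ.s i j z = (1 : Matrix (Fin n) (Fin n) ℝ) i j := by
  rw [p.s, Fl_s m hn h0 h1 hR hz]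

/-- `Γ` in the flat region. -/
theorem Fl_G {z : E} (hz : z ∈ Fl π sg R kap Gs) (f g : E → ℝ) :
    σ.Γ f g z = ∑ i, σ.D i f z * σ.D i g z := by
  unfold Sl.Γ
  simp only [Fl_sz p m hn h0 h1 hR hz]
  refine Finset.sum_congr rfl fun i _ => ?_
  rw [Finset.sum_eq_single i]
  · simp
  · intro j _ hj
    simp [Matrix.one_apply_ne' hj]
  · simp

/-- `Λ` in the flat region. -/
theorem Fl_L {z : E} (hz : z ∈ Fl π sg R kap Gs) (f : E → ℝ) :
    σ.Λ f z = ∑ i, σ.D i (σ.D i f) z := by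
  unfold Sl.Λ
  simp only [Fl_sz p m hn h0 h1 hR hz, Fl_Ds p m hn h0 h1 hR hz, p.k, zero_mul, add_zero]
  refine Finset.sum_congr rfl fun i _ => ?_
  rw [Finset.sum_eq_single i]
  · simp
  · intro j _ hj
    simp [Matrix.one_apply_ne' hj]
  · simp

theorem Fl_ss {z : E} (hz : z ∈ Fl π sg R kap Gs) (A : Fin n → ℝ) :
    ss σ A z = ∑ i, A i ^ 2 := by
  unfold ss
  simp only [Fl_sz p m hn h0 h1 hR hz]
  exact one_quad A

/-- The Hessian in the flat region. -/
theorem Fl_HH {z : E} (hz : z ∈ Fl π sg R kap Gs) (f : E → ℝ) (A : Fin n → ℝ) :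
    INF.HH σ f z A = ∑ i, ∑ j, 1 / 2 * (σ.D i (σ.D j f) z + σ.D j (σ.D i f) z) * A i * A j := by
  unfold INF.HH
  refine Finset.sum_congr rfl fun i _ => Finset.sum_congr rfl fun l _ => ?_
  unfold Sl.Hc
  simp only [Fl_sz p m hn h0 h1 hR hz, Fl_Ds p m hn h0 h1 hR hz, p.η, mul_zero, zero_mul, add_zero,
    sub_zero]
  congr 2
  rw [Finset.sum_eq_single i, Finset.sum_eq_single l]
  · simp
  · intro k _ hk
    simp [Matrix.one_apply_ne hk]
  · simp
  · intro j _ hj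
    exact Finset.sum_eq_zero fun k _ => by simp [Matrix.one_apply_ne' hj]
  · simp

theorem Fl_DD {z : E} (hz : z ∈ Fl π sg R kap Gs) (i j : Fin n) :
    σ.D j (σ.D i fun z => levG n sg R kap Gs (π z)) z = sg / R * (if i = j then 1 else 0) := by
  have e : (σ.D i fun z => levG n sg R kap Gs (π z)) =ᶠ[𝓝 z]
      fun z => (fun x => wR n sg R x i) (π z) := by
    filter_upwards [(Fl_open (kap := kap) (Gs := Gs) p h0 h1).mem_nhds hz] with w hw
    exact Fl_D p m hn h0 h1 hR hw i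
  rw [D_congr_nhds σ e, p.DL (cd_wR i)]
  exact pd_wR i j _

/-- (V3) -/
theorem Fl_LL {z : E} (hz : z ∈ Fl π sg R kap Gs) :
    σ.Λ (fun z => levG n sg R kap Gs (π z)) z = n * (sg / R) := by
  rw [Fl_L p m hn h0 h1 hR hz]
  simp only [Fl_DD p m hn h0 h1 hR hz]
  simp

theorem Fl_GL {z : E} (hz : z ∈ Fl π sg R kap Gs) :
    σ.Γ (fun z => levG n sg R kap Gs (π z)) (fun z => levG n sg R kap Gs (π z)) z =
      HY.sq (wR n sg R (π z)) := by
  rw [Fl_G p m hn h0 h1 hR hz]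
  simp only [Fl_D p m hn h0 h1 hR hz]
  unfold HY.sq
  exact Finset.sum_congr rfl fun i _ => by ring

theorem Fl_HL {z : E} (hz : z ∈ Fl π sg R kap Gs) (A : Fin n → ℝ) :
    INF.HH σ (fun z => levG n sg R kap Gs (π z)) z A = sg / R * ss σ A z := by
  rw [Fl_HH p m hn h0 h1 hR hz, Fl_ss p m hn h0 h1 hR hz, Finset.mul_sum]
  refine Finset.sum_congr rfl fun i _ => ?_
  rw [Finset.sum_eq_single i]
  · rw [Fl_DD p m hn h0 h1 hR hz, if_pos rfl]; ring
  · intro j _ hj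
    rw [Fl_DD p m hn h0 h1 hR hz, Fl_DD p m hn h0 h1 hR hz, if_neg hj, if_neg (Ne.symm hj)]
    ring
  · simp

theorem Fl_DLL {z : E} (hz : z ∈ Fl π sg R kap Gs) (i : Fin n) :
    σ.D i (σ.Λ fun z => levG n sg R kap Gs (π z)) z = 0 := by
  have e : (σ.Λ fun z => levG n sg R kap Gs (π z)) =ᶠ[𝓝 z] fun _ => (n : ℝ) * (sg / R) := by
    filter_upwards [(Fl_open (kap := kap) (Gs := Gs) p h0 h1).mem_nhds hz] with w hw
    exact Fl_LL p m hn h0 h1 hR hw
  rw [D_congr_nhds σ e, D_const]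

theorem Fl_GLL {z : E} (hz : z ∈ Fl π sg R kap Gs) (f : E → ℝ) :
    σ.Γ f (σ.Λ fun z => levG n sg R kap Gs (π z)) z = 0 := by
  rw [Fl_G p m hn h0 h1 hR hz]
  simp [Fl_DLL p m hn h0 h1 hR hz]

theorem Fl_LLL {z : E} (hz : z ∈ Fl π sg R kap Gs) :
    σ.Λ (σ.Λ fun z => levG n sg R kap Gs (π z)) z = 0 := by
  rw [Fl_L p m hn h0 h1 hR hz]
  refine Finset.sum_eq_zero fun i _ => ?_
  have e : (σ.D i (σ.Λ fun z => levG n sg R kap Gs (π z))) =ᶠ[𝓝 z] fun _ => (0 : ℝ) := by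
    filter_upwards [(Fl_open (kap := kap) (Gs := Gs) p h0 h1).mem_nhds hz] with w hw
    exact Fl_DLL p m hn h0 h1 hR hw i
  rw [D_congr_nhds σ e, D_const]

theorem Fl_DG {z : E} (hz : z ∈ Fl π sg R kap Gs) (k : Fin n) :
    σ.D k (σ.Γ (fun z => levG n sg R kap Gs (π z)) fun z => levG n sg R kap Gs (π z)) z =
      2 * (sg / R) * wR n sg R (π z) k := by
  have e : (σ.Γ (fun z => levG n sg R kap Gs (π z)) fun z => levG n sg R kap Gs (π z)) =ᶠ[𝓝 z]
      fun z => (fun x => HY.sq (wR n sg R x)) (π z) := by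
    filter_upwards [(Fl_open (kap := kap) (Gs := Gs) p h0 h1).mem_nhds hz] with w hw
    exact Fl_GL p m hn h0 h1 hR hw
  have cs : ContDiff ℝ ∞ fun x : V n => HY.sq (wR n sg R x) :=
    contDiff_sq.comp (contDiff_pi.2 fun j => cd_wR j)
  rw [D_congr_nhds σ e, p.DL cs]
  have e2 : (fun x : V n => HY.sq (wR n sg R x)) = fun x => HY.sq (wv n sg (R⁻¹ • x)) := rfl
  have hd : Differentiable ℝ fun y : V n => HY.sq (wv n sg y) := fun y =>
    (fd_sqw sg y).differentiableAt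
  rw [e2]
  beta_reduce
  rw [pd_scale hd]
  unfold pd
  rw [(fd_sqw sg _).fderiv, sum_proj]
  unfold wR
  field_simp

/-- `Γ(L, Γ(L, L))`. -/
theorem Fl_GG {z : E} (hz : z ∈ Fl π sg R kap Gs) :
    σ.Γ (fun z => levG n sg R kap Gs (π z))
      (σ.Γ (fun z => levG n sg R kap Gs (π z)) fun z => levG n sg R kap Gs (π z)) z =
      2 * (sg / R) * HY.sq (wR n sg R (π z)) := by
  rw [Fl_G p m hn h0 h1 hR hz]
  simp only [Fl_D p m hn h0 h1 hR hz, Fl_DG p m hn h0 h1 hR hz]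
  unfold HY.sq
  rw [Finset.mul_sum]
  exact Finset.sum_congr rfl fun i _ => by ring

/-- `Λ Γ(L, L)`. -/
theorem Fl_LG {z : E} (hz : z ∈ Fl π sg R kap Gs) :
    σ.Λ (σ.Γ (fun z => levG n sg R kap Gs (π z)) fun z => levG n sg R kap Gs (π z)) z =
      2 * n * (sg / R) ^ 2 := by
  rw [Fl_L p m hn h0 h1 hR hz]
  have h2 : ∀ i, σ.D i (σ.D i (σ.Γ (fun z => levG n sg R kap Gs (π z))
      fun z => levG n sg R kap Gs (π z))) z = 2 * (sg / R) ^ 2 := by
    intro i
    have e : (σ.D i (σ.Γ (fun z => levG n sg R kap Gs (π z))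
      fun z => levG n sg R kap Gs (π z))) =ᶠ[𝓝 z]
      fun z => (fun x => 2 * (sg / R) * wR n sg R x i) (π z) := by
      filter_upwards [(Fl_open (kap := kap) (Gs := Gs) p h0 h1).mem_nhds hz] with w hw
      exact Fl_DG p m hn h0 h1 hR hw i
    rw [D_congr_nhds σ e, p.DL (contDiff_const.mul (cd_wR i))]
    have e3 : pd i (fun x : V n => 2 * (sg / R) * wR n sg R x i) (π z) =
        2 * (sg / R) * pd i (fun x => wR n sg R x i) (π z) := by
      unfold pd
      rw [fderiv_const_mul ((cd_wR i).differentiable (by simp) _)]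
      simp
    beta_reduce
    rw [e3, pd_wR, if_pos rfl]
    ring
  simp only [h2]
  simp
  ring

/-- `|w|² ≥ 9/10` in the flat region. -/
theorem Fl_q {z : E} (hz : z ∈ Fl π sg R kap Gs) : 1 ≤ HY.sq (wR n sg R (π z)) := by
  have h2 := levG_lit (kap := kap) (Gs := Gs) h0 h1 (Fl_th h0 h1 hR hz)
  have h3 : lam0 R kap Gs + 21 / 20 * R < levG n sg R kap Gs (π z) := hz
  rw [h2] at h3
  by_contra hc
  have h4 : R / (2 * sg) * (HY.sq (wR n sg R (π z)) - 1) ≤ 0 :=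
    mul_nonpos_of_nonneg_of_nonpos (by positivity) (by linarith [not_le.1 hc])
  linarith

end flat

end slot

end Vale.Agent.P088.R2.H168.INF
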