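import Vale.Agent.P088.R2.H168.INF.Lvp
import Vale.Agent.P088.R2.H168.INF.T
import Vale.Agent.P088.R2.H269.INF.Add

/-!
# P088, stage 3, zone INF: crude bounds of the quantum part
-/

open MeasureTheory Set Filter
open scoped ContDiff Topology Matrix

noncomputable section

namespace Vale.Agent.P088.R2.H168.INF

open Vale.Agent.P088.R2.H961.GW Vale.Agent.P088.R2.H960.W Vale.Agent.P088.R2.H644
open Vale.Agent.P088.R2.H551.E Vale.Agent.P088.R2.H269.INF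

variable {n : ℕ} {E : Type*} [NormedAddCommGroup E] [NormedSpace ℝ E]

section pw

variable {σ τ : Sl E (Fin n)} {U : Set E} {θ W f : E → ℝ} {z : E} {C : ℝ} {g gx gy : ℕ → ℝ}

/-- `s(D f, A)` from bounds. -/
theorem gA_bd {d : ℝ} (hs : ∀ i j, |σ.s i j z| ≤ 2) (hd : ∀ i, |σ.D i f z| ≤ d)
    (A : Fin n → ℝ) : |H747.S.gA σ f z A| ≤ 2 * n * d * ∑ i, |A i| := by
  unfold H747.S.gA
  have h : ∀ i, |∑ j, σ.s i j z * σ.D i f z * A j| ≤ 2 * d * ∑ j, |A j| := by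
    intro i
    rw [Finset.mul_sum]
    refine (Finset.abs_sum_le_sum_abs _ _).trans (Finset.sum_le_sum fun j _ => ?_)
    rw [abs_mul, abs_mul]
    have h1 : |σ.s i j z| * |σ.D i f z| ≤ 2 * d :=
      mul_le_mul (hs i j) (hd i) (abs_nonneg _) (by norm_num)
    exact mul_le_mul_of_nonneg_right h1 (abs_nonneg _)
  calc |∑ i, ∑ j, σ.s i j z * σ.D i f z * A j| ≤ ∑ i : Fin n, 2 * d * ∑ j, |A j| :=
        (Finset.abs_sum_le_sum_abs _ _).trans (Finset.sum_le_sum fun i _ => h i)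
    _ = 2 * n * d * ∑ i, |A i| := by
        simp only [Finset.sum_const, Finset.card_univ, Fintype.card_fin, nsmul_eq_mul]
        ring

theorem young {t X a x : ℝ} (ht : 0 < t) (hX : 0 ≤ X) (ha : 0 ≤ a) (hx : 0 ≤ x) :
    X * (x * a) ≤ t * (X * a ^ 2) + 1 / (4 * t) * (X * x ^ 2) := by
  have h : x * a ≤ t * a ^ 2 + 1 / (4 * t) * x ^ 2 := by
    have h1 : 0 ≤ (2 * t * a - x) ^ 2 / (4 * t) := by positivity
    have h2 : (2 * t * a - x) ^ 2 / (4 * t) = t * a ^ 2 + 1 / (4 * t) * x ^ 2 - x * a := by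
      field_simp
      ring
    linarith
  have := mul_le_mul_of_nonneg_left h hX
  linarith

theorem lin_sz {n t C G X Y a β a2 β2 x y : ℝ} (hn : 0 ≤ n) (ht : 0 < t) (hC : 0 ≤ C) (hG : 1 ≤ G)
    (hX : G ≤ X) (hY : G ≤ Y) (ha : 0 ≤ a) (hβ : 0 ≤ β) (hx : 0 ≤ x) (hy : 0 ≤ y)
    (h2 : a ^ 2 ≤ n * a2) (h3 : β ^ 2 ≤ n * β2) :
    2 * n * C * (X * (x * a)) + 2 * n * C * (G * (y * a)) + 2 * n * C * (G * (x * β)) +
      2 * n * C * (Y * (y * β)) ≤ 4 * n ^ 2 * C * t * (X * a2 + Y * β2) +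
        n * C / t * (X ^ 2 * x ^ 2 + Y ^ 2 * y ^ 2) := by
  have X0 : 0 ≤ X := by linarith
  have Y0 : 0 ≤ Y := by linarith
  have y1 := young ht X0 ha hx
  have y2 := young ht (by linarith : (0 : ℝ) ≤ G) ha hy
  have y3 := young ht (by linarith : (0 : ℝ) ≤ G) hβ hx
  have y4 := young ht Y0 hβ hy
  have XX : X ≤ X ^ 2 := by nlinarith
  have YY : Y ≤ Y ^ 2 := by nlinarith
  have x2 := sq_nonneg x
  have y2' := sq_nonneg y
  have k1 : G * a ^ 2 ≤ X * a ^ 2 := mul_le_mul_of_nonneg_right hX (sq_nonneg _)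
  have k2 : G * β ^ 2 ≤ Y * β ^ 2 := mul_le_mul_of_nonneg_right hY (sq_nonneg _)
  have k3 : X * x ^ 2 ≤ X ^ 2 * x ^ 2 := mul_le_mul_of_nonneg_right XX x2
  have k4 : Y * y ^ 2 ≤ Y ^ 2 * y ^ 2 := mul_le_mul_of_nonneg_right YY y2'
  have k5 : G * x ^ 2 ≤ X ^ 2 * x ^ 2 := mul_le_mul_of_nonneg_right (hX.trans XX) x2
  have k6 : G * y ^ 2 ≤ Y ^ 2 * y ^ 2 := mul_le_mul_of_nonneg_right (hY.trans YY) y2'
  have t1 := mul_le_mul_of_nonneg_left k1 ht.le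
  have t2 := mul_le_mul_of_nonneg_left k2 ht.le
  have h4 : 0 ≤ 1 / (4 * t) := by positivity
  have t3 := mul_le_mul_of_nonneg_left k3 h4
  have t4 := mul_le_mul_of_nonneg_left k4 h4
  have t5 := mul_le_mul_of_nonneg_left k5 h4
  have t6 := mul_le_mul_of_nonneg_left k6 h4
  have s1 : X * (x * a) + G * (y * a) + G * (x * β) + Y * (y * β) ≤
      2 * t * (X * a ^ 2 + Y * β ^ 2) + 2 * (1 / (4 * t) * (X ^ 2 * x ^ 2 + Y ^ 2 * y ^ 2)) := by
    linarith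
  have s2 : X * a ^ 2 + Y * β ^ 2 ≤ n * (X * a2 + Y * β2) := by
    have k1 := mul_le_mul_of_nonneg_left h2 X0
    have k2 := mul_le_mul_of_nonneg_left h3 Y0
    linarith
  have nC : 0 ≤ 2 * n * C := by positivity
  have S := mul_le_mul_of_nonneg_left s1 nC
  have S2 := mul_le_mul_of_nonneg_left s2 (by positivity : (0 : ℝ) ≤ 2 * n * C * (2 * t))
  have e7 : 2 * n * C * (2 * (1 / (4 * t) * (X ^ 2 * x ^ 2 + Y ^ 2 * y ^ 2))) =
      n * C / t * (X ^ 2 * x ^ 2 + Y ^ 2 * y ^ 2) := by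
    field_simp
    ring
  linarith

theorem xy_sz {G X Y x y : ℝ} (hG : 1 ≤ G) (hX : G ≤ X) (hY : G ≤ Y) :
    G ^ 2 * |x * y| ≤ 1 / 2 * (X ^ 2 * x ^ 2 + Y ^ 2 * y ^ 2) := by
  have X0 : 0 ≤ X := by linarith
  have Y0 : 0 ≤ Y := by linarith
  have h1 : G * |x| ≤ X * |x| := mul_le_mul_of_nonneg_right hX (abs_nonneg x)
  have h2 : G * |y| ≤ Y * |y| := mul_le_mul_of_nonneg_right hY (abs_nonneg y)
  have h3 : (G * |x|) * (G * |y|) ≤ (X * |x|) * (Y * |y|) :=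
    mul_le_mul h1 h2 (by positivity) (by positivity)
  rw [abs_mul]
  have h4 := sq_nonneg (X * |x| - Y * |y|)
  have e : (X * |x| - Y * |y|) ^ 2 = X ^ 2 * |x| ^ 2 + Y ^ 2 * |y| ^ 2 -
      2 * ((X * |x|) * (Y * |y|)) := by ring
  rw [e, sq_abs, sq_abs] at h4
  linarith

theorem G_zero (σ : Sl E (Fin n)) (W : E → ℝ) (z : E) : σ.Γ W 0 z = 0 := by
  unfold Sl.Γ
  refine Finset.sum_eq_zero fun i _ => Finset.sum_eq_zero fun j _ => ?_
  have : σ.D j (0 : E → ℝ) z = 0 := D_const σ 0 j z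
  rw [this, mul_zero]

/-- **The quantum part.** -/
theorem qf_bd {G X Y t : ℝ} (b : Sb5 σ τ W C g gx gy z) (hs : ∀ i j, |σ.s i j z| ≤ 2)
    (hs' : ∀ i j, |τ.s i j z| ≤ 2) (hC : 0 ≤ C) (ht : 0 < t) (hG : 1 ≤ G) (hX : G ≤ X)
    (hY : G ≤ Y) (bg : ∀ j ≤ 3, 0 ≤ g j ∧ g j ≤ G) (bx : ∀ j ≤ 3, 0 ≤ gx j ∧ gx j ≤ X)
    (bY : ∀ j ≤ 3, 0 ≤ gy j ∧ gy j ≤ Y) (A B : Fin n → ℝ) (x y : ℝ) :
    -(32 * n ^ 2 * C * t * (X * ∑ i, A i ^ 2 + Y * ∑ i, B i ^ 2) +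
        (8 * n * C / t + 20 * C) * (X ^ 2 * x ^ 2 + Y ^ 2 * y ^ 2)) ≤
      H747.S.qf σ τ 0 0 W z A B x y := by
  have x0 := abs_nonneg x
  have y0 := abs_nonneg y
  have XX : X ≤ X ^ 2 := by nlinarith
  have YY : Y ≤ Y ^ 2 := by nlinarith
  have x2 := sq_nonneg x
  have y2' := sq_nonneg y
  have lin := lin_sz (n := n) (Nat.cast_nonneg n) ht hC hG hX hY
    (Finset.sum_nonneg fun i _ => abs_nonneg (A i)) (Finset.sum_nonneg fun i _ => abs_nonneg (B i))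
    x0 y0 (a1_sq A) (a1_sq B)
  rw [sq_abs, sq_abs] at lin
  have gxy := xy_sz (x := x) (y := y) hG hX hY
  -- the linear terms
  have f1 : x * H747.S.gA σ (σ.Λ W) z A ≤ 2 * n * C * (X * (|x| * ∑ i, |A i|)) := by
    refine (le_abs_self _).trans ?_
    rw [abs_mul]
    have h := gA_bd hs (fun i => (b.l1 i).trans
      (mul_le_mul_of_nonneg_left (bx 2 (by norm_num)).2 hC)) A
    have := mul_le_mul_of_nonneg_left h x0
    linarith
  have f2 : y * H747.S.gA σ (τ.Λ W) z A ≤ 2 * n * C * (G * (|y| * ∑ i, |A i|)) := by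
    refine (le_abs_self _).trans ?_
    rw [abs_mul]
    have h := gA_bd hs (fun i => (b.l2 i).trans
      (mul_le_mul_of_nonneg_left (bg 2 (by norm_num)).2 hC)) A
    have := mul_le_mul_of_nonneg_left h y0
    linarith
  have f3 : x * H747.S.gA τ (σ.Λ W) z B ≤ 2 * n * C * (G * (|x| * ∑ i, |B i|)) := by
    refine (le_abs_self _).trans ?_
    rw [abs_mul]
    have h := gA_bd hs' (fun i => (b.l3 i).trans
      (mul_le_mul_of_nonneg_left (bg 2 (by norm_num)).2 hC)) B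
    have := mul_le_mul_of_nonneg_left h x0
    linarith
  have f4 : y * H747.S.gA τ (τ.Λ W) z B ≤ 2 * n * C * (Y * (|y| * ∑ i, |B i|)) := by
    refine (le_abs_self _).trans ?_
    rw [abs_mul]
    have h := gA_bd hs' (fun i => (b.l4 i).trans
      (mul_le_mul_of_nonneg_left (bY 2 (by norm_num)).2 hC)) B
    have := mul_le_mul_of_nonneg_left h y0
    linarith
  -- the quadratic terms
  have sqm : ∀ {p q r : ℝ}, |p| ≤ C * q → 0 ≤ r → p * r ≤ C * (q * r) := by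
    intro p q r h hr
    have h1 := mul_le_mul_of_nonneg_right ((le_abs_self p).trans h) hr
    linarith
  have sqm' : ∀ {p q r : ℝ}, |p| ≤ C * q → 0 ≤ r → -(C * (q * r)) ≤ p * r := by
    intro p q r h hr
    have h1 := mul_le_mul_of_nonneg_right ((neg_le_neg h).trans (neg_abs_le p)) hr
    linarith
  have r1 := sqm (b.g2.trans (mul_le_mul_of_nonneg_left
    (pow_le_pow_left₀ (bx 1 (by norm_num)).1 (bx 1 (by norm_num)).2 2) hC)) x2
  have r2 := sqm (b.g2'.trans (mul_le_mul_of_nonneg_left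
    (pow_le_pow_left₀ (bY 1 (by norm_num)).1 (bY 1 (by norm_num)).2 2) hC)) y2'
  have r4 := sqm' (b.m1.trans (mul_le_mul_of_nonneg_left ((bx 3 le_rfl).2.trans XX) hC)) x2
  have r5 := sqm' (b.m4.trans (mul_le_mul_of_nonneg_left ((bY 3 le_rfl).2.trans YY) hC)) y2'
  have q3 : |M2 σ τ W W z| ≤ C * G ^ 2 := b.gm.trans
    (mul_le_mul_of_nonneg_left (pow_le_pow_left₀ (bg 1 (by norm_num)).1 (bg 1 (by norm_num)).2 2) hC)
  have q6 : |σ.Λ (τ.Λ W) z| ≤ C * G ^ 2 := b.m2.trans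
    (mul_le_mul_of_nonneg_left ((bg 3 le_rfl).2.trans (by nlinarith)) hC)
  have gC := mul_le_mul_of_nonneg_left gxy hC
  have r3 : M2 σ τ W W z * (x * y) ≤ C * (1 / 2 * (X ^ 2 * x ^ 2 + Y ^ 2 * y ^ 2)) := by
    refine (le_abs_self _).trans ?_
    rw [abs_mul]
    have := mul_le_mul_of_nonneg_right q3 (abs_nonneg (x * y))
    linarith
  have r6 : -(C * (1 / 2 * (X ^ 2 * x ^ 2 + Y ^ 2 * y ^ 2))) ≤ σ.Λ (τ.Λ W) z * (x * y) := by
    refine le_trans ?_ (neg_abs_le _)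
    rw [abs_mul]
    have := mul_le_mul_of_nonneg_right q6 (abs_nonneg (x * y))
    linarith
  have e8 : 8 * n * C / t = 8 * (n * C / t) := by ring
  unfold H747.S.qf
  rw [G_zero, G_zero, e8]
  linarith

end pw

end Vale.Agent.P088.R2.H168.INF
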