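import Vale.Agent.P088.R2.H168.INF.Spec
import Vale.Agent.P088.R2.H168.INF.T
import Vale.Agent.P088.R2.H168.INF.No3
import Vale.Agent.P088.R2.H871.INF.RetP

/-!
# P088, stage 3, leaf iH: the letters and the pointwise rows

`χ = ch iH` is split into three parts: `H1` (both levels `≤ l₀ + 2.9 R`, `u ≥ 2 l₀ + 4.55 R`),
`H2a` (`l(x) ≥ l₀ + 2.85 R`), `H2b` (`l(y) ≥ l₀ + 2.85 R`).
-/

open Set Filter MeasureTheory
open scoped ContDiff Topology Matrix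

noncomputable section

namespace Vale.Agent.P088.R2.H168.INF

open Vale.Agent.P088.LR Vale.Agent.P088.HY Vale.Agent.P088.R2.H31.EP
open Vale.Agent.P088.R2.H961.GW Vale.Agent.P088.R2.H644 Vale.Agent.P088.R2.H551.E

variable {n : ℕ}

/-! ### The letters -/

/-- `N` at `(P x, P y)`. -/
def hN (q : Cst) (d : Pk n) (z : VV n) : ℝ := deriv d.Φ (d.l (d.P z.1) + d.l (d.P z.2))

/-- `n_x`, `n_y`. -/
def hX (q : Cst) (d : Pk n) (z : VV n) : ℝ := hN q d z + deriv d.Θ (d.l z.1)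
def hY (q : Cst) (d : Pk n) (z : VV n) : ℝ := hN q d z + deriv d.Θ (d.l z.2)

/-- The multipliers. -/
def lmH (q : Cst) (d : Pk n) (z : VV n) : ℝ := 1 / 100 * (q.σ / q.R) * hX q d z
def muH (q : Cst) (d : Pk n) (z : VV n) : ℝ := 1 / 100 * (q.σ / q.R) * hY q d z

/-- The errors. -/
def eH (q : Cst) (m : ℝ) : ℝ := 1 / 10 ^ 6 * ((q.σ / q.R) * m) ^ 2

/-- **The margin of the leaf iH** (without the factor `χ²`). -/
def MiH (q : Cst) (d : Pk n) : Q8 (VV n) where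
  κ _ := 1
  ζ₁ z := lmH q d z / 6
  ζ₂ z := muH q d z / 6
  ζy _ := 0
  w₁ z := lmH q d z * d.sx.F (d.W q) z / 4 + lmH q d z ^ 2 / 4
  w₂ z := muH q d z * d.sy.F (d.W q) z / 4 + muH q d z ^ 2 / 4
  wb _ := 0
  wc _ := 0

/-- The cost of one slot. -/
def kH {E ι : Type*} [NormedAddCommGroup E] [NormedSpace ℝ E] [Fintype ι] (σ : Sl E ι)
    (W χ lam : E → ℝ) (z : E) : ℝ :=
  4 * lam z * σ.Γ χ χ z + 64 * |HH σ W z fun i => σ.D i χ z| + 8 * |χ z * σ.Γ χ (σ.Λ W) z|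

/-- **The cost of the leaf iH** with the cut-off `χ`. -/
def CiH (χ : VV n → ℝ) (q : Cst) (d : Pk n) : Q8 (VV n) where
  κ _ := 0
  ζ₁ _ := 0
  ζ₂ _ := 0
  ζy _ := 0
  w₁ := kH d.sx (d.W q) χ (lmH q d)
  w₂ := kH d.sy (d.W q) χ (muH q d)
  wb _ := 0
  wc _ := 0

/-! ### The rows -/

/-- The facts of one slot. -/
structure Own {E ι : Type*} [NormedAddCommGroup E] [NormedSpace ℝ E] [Fintype ι] (σ : Sl E ι)
    (W lam : E → ℝ) (e : ℝ) (z : E) : Prop where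
  h : ∀ A : ι → ℝ, lam z * ss σ A z ≤ HH σ W z A
  o : 2 * |σ.Λ (σ.Λ W) z| ≤ e + 2 * HH σ W z (fun i => σ.D i W z)
  w : lam z * σ.F W z / 4 + lam z ^ 2 / 4 ≤
    lam z * σ.F W z / 2 + 2 / 3 * (lam z * σ.Λ W z + σ.Γ lam W z) - 3 * e

/-- The weight without retraction, with the top part of the own slot. -/
def wY0 (q : Cst) (d : Pk n) (z : VV n) : ℝ := W0 q d z + d.Θ (d.l z.2)
def wX0 (q : Cst) (d : Pk n) (z : VV n) : ℝ := W0 q d z + d.Θ (d.l z.1)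

/-- `n_y`, `n_x` without retraction. -/
def hY0 (q : Cst) (d : Pk n) (z : VV n) : ℝ :=
  deriv d.Φ (d.l z.1 + d.l z.2) + deriv d.Θ (d.l z.2)
def hX0 (q : Cst) (d : Pk n) (z : VV n) : ℝ :=
  deriv d.Φ (d.l z.1 + d.l z.2) + deriv d.Θ (d.l z.1)

/-- The conclusion of the rows `Oy`, `Ox`. -/
def OY (q : Cst) (d : Pk n) (z : VV n) : Prop :=
  Own d.sy (wY0 q d) (fun z => 1 / 100 * (q.σ / q.R) * hY0 q d z) (eH q (hY0 q d z)) z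
def OX (q : Cst) (d : Pk n) (z : VV n) : Prop :=
  Own d.sx (wX0 q d) (fun z => 1 / 100 * (q.σ / q.R) * hX0 q d z) (eH q (hX0 q d z)) z

/-- The levels: `x` high, `y` below the top. -/
def LvY (q : Cst) (d : Pk n) (z : VV n) : Prop :=
  d.l₀ q + 285 / 100 * q.R ≤ d.l z.1 ∧ d.l z.1 ≤ d.l₀ q + 31 / 10 * q.R ∧
    d.l z.2 ≤ d.l₀ q + 29 / 10 * q.R
def LvX (q : Cst) (d : Pk n) (z : VV n) : Prop :=
  d.l₀ q + 285 / 100 * q.R ≤ d.l z.2 ∧ d.l z.2 ≤ d.l₀ q + 31 / 10 * q.R ∧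
    d.l z.1 ≤ d.l₀ q + 29 / 10 * q.R

/-- **Row O1**: `N` is large (near pairs included). -/
def RowO1 (n : ℕ) : Prop := EvC fun q => ∀ d : Pk n, PkOk q d → ∀ z : VV n,
  2 * d.l₀ q + 91 / 20 * q.R ≤ d.l z.1 + d.l z.2 →
  (LvY q d z → OY q d z) ∧ (LvX q d z → OX q d z)

/-- **Row O2**: far pairs, not deep. -/
def RowO2 (n : ℕ) : Prop := EvC fun q => ∀ d : Pk n, PkOk q d → ∀ z : VV n,
  (q.κ₁ * q.R / 4) ^ 2 < HY.sq (z.1 - z.2) →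
  -(11 / 1000) * (q.R / q.σ) < d.l z.1 + d.l z.2 + 4 / 5 * √(q.R ^ 2 + HY.sq (z.1 - z.2)) →
  (LvY q d z → OY q d z) ∧ (LvX q d z → OX q d z)

/-- **Row O3**: deep pairs. -/
def RowO3 (n : ℕ) : Prop := EvC fun q => ∀ d : Pk n, PkOk q d → ∀ z : VV n,
  d.l z.1 + d.l z.2 + 4 / 5 * √(q.R ^ 2 + HY.sq (z.1 - z.2)) ≤ -(5 / 1000) * (q.R / q.σ) →
  (LvY q d z → OY q d z) ∧ (LvX q d z → OX q d z)

/-- The facts of a very stiff slot `σ` and of the mixed terms; `m` is a lower bound of the slope of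
the other slot. -/
structure Stf {E ι κ : Type*} [NormedAddCommGroup E] [NormedSpace ℝ E] [Fintype ι] [Fintype κ]
    (σ : Sl E ι) (τ : Sl E κ) (W lam : E → ℝ) (e mu f : ℝ) (z : E) : Prop where
  h : ∀ A : ι → ℝ, lam z * ss σ A z ≤ HH σ W z A
  o : 2 * |σ.Λ (σ.Λ W) z| ≤ e
  w : lam z * σ.F W z / 4 + lam z ^ 2 / 4 + lam z * σ.F W z / 8 ≤
    lam z * σ.F W z / 2 + 2 / 3 * (lam z * σ.Λ W z + σ.Γ lam W z) - 3 * e
  pen : ∀ v : ι → ℝ, (∀ i, |v i| ≤ 1) →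
    4 * lam z * ss σ v z + 64 * |HH σ W z v| + 8 * |gA σ (σ.Λ W) z v| ≤ lam z * σ.F W z / 8
  mm : ∀ (A : ι → ℝ) (B : κ → ℝ),
    16 * |MM σ τ W z A B| ≤ 1 / 2 * (lam z * ss σ A z + mu * ss τ B z)
  g1 : ∀ (A : ι → ℝ) (y : ℝ),
    8 * |y * gA σ (τ.Λ W) z A| ≤ 1 / 2 * (lam z * ss σ A z) + f / 2 * y ^ 2
  g2 : ∀ (B : κ → ℝ) (x : ℝ),
    8 * |x * gA τ (σ.Λ W) z B| ≤ 1 / 2 * (mu * ss τ B z) + e / 2 * x ^ 2
  m2 : (16 * |M2 σ τ W W z| + 4 * |σ.Λ (τ.Λ W) z|) ^ 2 ≤ e * f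

/-- **Row SS**: the very stiff slot (`l ≥ l₀ + 2.85 R`). -/
def RowSS (n : ℕ) : Prop := EvC fun q => ∀ d : Pk n, PkOk q d → ∀ z : VV n,
  (d.l₀ q + 285 / 100 * q.R ≤ d.l z.1 → Stf d.sx d.sy (d.W q) (lmH q d) (eH q (hX q d z))
    (1 / 100 * (q.σ / q.R)) (eH q 1) z) ∧
  (d.l₀ q + 285 / 100 * q.R ≤ d.l z.2 → Stf d.sy d.sx (d.W q) (muH q d) (eH q (hY q d z))
    (1 / 100 * (q.σ / q.R)) (eH q 1) z)

/-- The region of the part `H1`. -/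
def SH1 (q : Cst) (d : Pk n) : Set (VV n) :=
  {z | d.l z.1 ≤ d.l₀ q + 29 / 10 * q.R ∧ d.l z.2 ≤ d.l₀ q + 29 / 10 * q.R ∧
    2 * d.l₀ q + 91 / 20 * q.R ≤ d.l z.1 + d.l z.2}

/-- The margin of the part `H1` (without the factor `χ²`). -/
def M1H (q : Cst) (d : Pk n) : Q8 (VV n) where
  κ _ := 1
  ζ₁ z := lmH q d z / 6
  ζ₂ z := muH q d z / 6
  ζy _ := 0
  w₁ z := lmH q d z * d.sx.F (d.W q) z / 2 + lmH q d z ^ 2 / 4
  w₂ z := muH q d z * d.sy.F (d.W q) z / 2 + muH q d z ^ 2 / 4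
  wb _ := 0
  wc _ := 0

/-- The cost of the part `H1`. -/
def C1H (χ : VV n → ℝ) (q : Cst) (d : Pk n) : Q8 (VV n) where
  κ _ := 0
  ζ₁ _ := 0
  ζ₂ _ := 0
  ζy _ := 0
  w₁ z := 4 * lmH q d z * d.sx.Γ χ χ z
  w₂ z := 4 * muH q d z * d.sy.Γ χ χ z
  wb _ := 0
  wc _ := 0

/-- **Row H1**: the zone inequality of the balanced part, for every cut-off with support in `S`. -/
def RowH1 (n : ℕ) : Prop := EvC fun q => ∀ d : Pk n, PkOk q d → ∀ χ : VV n → ℝ,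
  ContDiff ℝ ∞ χ → (∀ z, z ∉ SH1 q d → χ z = 0) →
  d.Zone q χ ((M1H q d).sm fun z => χ z ^ 2) (C1H χ q d)

end Vale.Agent.P088.R2.H168.INF
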