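import Vale.Agent.P088.R2.H168.INF.Spec2
import Vale.Agent.P088.R2.H404.INF.Alv

/-!
# P088, stage 3, leaf iH: the interface between the parts and the sum
-/

open Set Filter MeasureTheory
open scoped ContDiff Topology Matrix

noncomputable section

namespace Vale.Agent.P088.R2.H168.INF

open Vale.Agent.P088.LR Vale.Agent.P088.HY Vale.Agent.P088.R2.H31.EP
open Vale.Agent.P088.R2.H961.GW Vale.Agent.P088.R2.H644 Vale.Agent.P088.R2.H551.E

variable {n : ℕ}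

/-- The pointwise facts of one slot on the parts `H2`; `hi` says that the slot is very stiff. -/
structure PW {E ι : Type*} [NormedAddCommGroup E] [NormedSpace ℝ E] [Fintype ι] (σ : Sl E ι)
    (W lam : E → ℝ) (e : ℝ) (hi : Prop) (z : E) : Prop where
  l0 : 0 ≤ lam z
  psd : ∀ A : ι → ℝ, 0 ≤ HH σ W z A
  w : lam z * σ.F W z / 4 + lam z ^ 2 / 4 ≤
    lam z * σ.F W z / 2 + 2 / 3 * (lam z * σ.Λ W z + σ.Γ lam W z) - 3 * e
  w' : hi → lam z * σ.F W z / 4 + lam z ^ 2 / 4 + lam z * σ.F W z / 8 ≤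
    lam z * σ.F W z / 2 + 2 / 3 * (lam z * σ.Λ W z + σ.Γ lam W z) - 3 * e
  pen : hi → ∀ v : ι → ℝ, (∀ i, |v i| ≤ 1) →
    4 * lam z * ss σ v z + 64 * |HH σ W z v| + 8 * |gA σ (σ.Λ W) z v| ≤ lam z * σ.F W z / 8

/-- The regions of the parts `H2a`, `H2b`. -/
def S2a (q : Cst) (d : Pk n) : Set (VV n) := {z | d.l₀ q + 285 / 100 * q.R ≤ d.l z.1}
def S2b (q : Cst) (d : Pk n) : Set (VV n) := {z | d.l₀ q + 285 / 100 * q.R ≤ d.l z.2}

/-- **Row H2** (helper168, from `RowO1`, `RowO2`, `RowO3`, `RowSS`). -/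
def RowH2 (n : ℕ) : Prop := EvC fun q => ∀ d : Pk n, PkOk q d →
  (∀ χ : VV n → ℝ, ContDiff ℝ ∞ χ →
    ((∀ z, z ∉ S2a q d → χ z = 0) ∨ (∀ z, z ∉ S2b q d → χ z = 0)) →
    d.Zone q χ (mS d.sx d.sy (d.W q) χ (lmH q d) (muH q d) (fun z => eH q (hX q d z))
      fun z => eH q (hY q d z)) (cS d.sx d.sy (d.W q) χ (lmH q d) (muH q d))) ∧
  ∀ z, z ∈ S2a q d ∪ S2b q d →
    PW d.sx (d.W q) (lmH q d) (eH q (hX q d z)) (z ∈ S2a q d) z ∧
    PW d.sy (d.W q) (muH q d) (eH q (hY q d z)) (z ∈ S2b q d) z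

/-- **The goal of the sum** (helper404): `RowH1 n → RowH2 n → ZiH n`. -/
def ZiH (n : ℕ) : Prop := ZoneThm n (fun q d => d.ch q .iH)
  (fun q d => (MiH q d).sm fun z => d.ch q .iH z ^ 2) fun q d => CiH (d.ch q .iH) q d

end Vale.Agent.P088.R2.H168.INF
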