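import Vale.Agent.P088.R2.H168.INF.Spec3

/-!
# P088, stage 3, leaf iH: the transfer of the facts of one slot along a map of the other variable
-/

open Set Filter MeasureTheory
open scoped ContDiff Topology Matrix

noncomputable section

namespace Vale.Agent.P088.R2.H168.INF

open Vale.Agent.P088.LR Vale.Agent.P088.HY Vale.Agent.P088.R2.H31.EP
open Vale.Agent.P088.R2.H961.GW Vale.Agent.P088.R2.H644 Vale.Agent.P088.R2.H551.E

variable {E ι : Type*} [NormedAddCommGroup E] [NormedSpace ℝ E] [Fintype ι]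

/-- `π` does not change the variable of the slot. -/
structure Tm (σ : Sl E ι) (π : E → E) : Prop where
  sm : ContDiff ℝ ∞ π
  dv : ∀ z i, fderiv ℝ π z (σ.e i) = σ.e i
  ρ : ∀ z, σ.ρ (π z) = σ.ρ z
  s : ∀ i j z, σ.s i j (π z) = σ.s i j z
  k : ∀ i z, σ.k i (π z) = σ.k i z

variable {σ : Sl E ι} {π : E → E} {θ : E → ℝ} {f g W lam : E → ℝ}

theorem Tm.D (h : Tm σ π) (hg : ContDiff ℝ ∞ g) (i : ι) (z : E) :
    σ.D i (fun z => g (π z)) z = σ.D i g (π z) := by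
  unfold Sl.D
  have h1 : fderiv ℝ (fun z => g (π z)) z = (fderiv ℝ g (π z)).comp (fderiv ℝ π z) :=
    fderiv_comp z (hg.differentiable (by simp) _) (h.sm.differentiable (by simp) _)
  rw [h1, ContinuousLinearMap.comp_apply, h.dv, h.ρ]

theorem Tm.D' (h : Tm σ π) (hg : ContDiff ℝ ∞ g) (i : ι) :
    σ.D i (fun z => g (π z)) = fun z => σ.D i g (π z) := funext fun z => h.D hg i z

/-- The functions `f` which agree with `g ∘ π` up to a function which the slot does not see. -/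
structure Ag (σ : Sl E ι) (π : E → E) (O : Set E) (f g : E → ℝ) : Prop where
  op : IsOpen O
  sg : ContDiff ℝ ∞ g
  D : ∀ i, ∀ z ∈ O, σ.D i f z = σ.D i g (π z)

theorem Ag.of {c : E → ℝ} {O : Set E} (h : Tm σ π) (hO : IsOpen O) (hg : ContDiff ℝ ∞ g)
    (hf : ∀ z ∈ O, f z = g (π z) + c z) (hc : ContDiff ℝ ∞ c) (hc0 : ∀ i z, σ.D i c z = 0) :
    Ag σ π O f g := by
  refine ⟨hO, hg, fun i z hz => ?_⟩
  have s1 : Sm O fun z => g (π z) := (hg.comp h.sm).contDiffOn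
  rw [D_congr σ hO (g := fun z => g (π z) + c z) hf i hz,
    D_add σ hO s1 hc.contDiffOn i hz, hc0, add_zero, h.D hg]

variable {O : Set E}

theorem Ag.DD (a : Ag σ π O f g) (h : Tm σ π) (ok : σ.Ok univ θ) (i j : ι) {z : E}
    (hz : z ∈ O) : σ.D i (σ.D j f) z = σ.D i (σ.D j g) (π z) := by
  rw [D_congr σ a.op (g := fun z => σ.D j g (π z)) (fun z hz => a.D j z hz) i hz]
  exact h.D (contDiffOn_univ.1 (ok.sD a.sg.contDiffOn j)) i z

theorem Tm.Ds (h : Tm σ π) (ok : σ.Ok univ θ) (i j k : ι) (z : E) :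
    σ.D i (σ.s j k) (π z) = σ.D i (σ.s j k) z := by
  have h1 := h.D (g := σ.s j k) (contDiffOn_univ.1 (ok.ss j k)) i z
  rw [← h1]
  have : (fun z => σ.s j k (π z)) = σ.s j k := funext fun z => h.s j k z
  rw [this]

theorem Ag.L (a : Ag σ π O f g) (h : Tm σ π) (ok : σ.Ok univ θ) {z : E} (hz : z ∈ O) :
    σ.Λ f z = σ.Λ g (π z) := by
  unfold Sl.Λ
  refine Finset.sum_congr rfl fun i _ => Finset.sum_congr rfl fun j _ => ?_
  rw [a.DD h ok i j hz, a.D j z hz, h.s, h.k, h.Ds ok]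

theorem Ag.LL (a : Ag σ π O f g) (h : Tm σ π) (ok : σ.Ok univ θ) :
    Ag σ π O (σ.Λ f) (σ.Λ g) := by
  refine ⟨a.op, contDiffOn_univ.1 (ok.sL a.sg.contDiffOn), fun i z hz => ?_⟩
  rw [D_congr σ a.op (g := fun z => σ.Λ g (π z)) (fun z hz => a.L h ok hz) i hz]
  exact h.D (contDiffOn_univ.1 (ok.sL a.sg.contDiffOn)) i z

theorem Ag.G {f' g' : E → ℝ} (a : Ag σ π O f g) (b : Ag σ π O f' g') (h : Tm σ π) {z : E}
    (hz : z ∈ O) : σ.Γ f f' z = σ.Γ g g' (π z) := by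
  unfold Sl.Γ
  refine Finset.sum_congr rfl fun i _ => Finset.sum_congr rfl fun j _ => ?_
  rw [a.D i z hz, b.D j z hz, h.s]

theorem Tm.ss (h : Tm σ π) (A : ι → ℝ) (z : E) : ss σ A (π z) = ss σ A z := by
  unfold H168.INF.ss
  simp only [h.s]

theorem Tm.η (h : Tm σ π) (hρ : ∀ z, σ.ρ z = 1) (i : ι) (z : E) : σ.η i (π z) = σ.η i z := by
  have : σ.ρ = fun _ => 1 := funext hρ
  unfold Sl.η
  rw [this]
  simp

theorem Ag.Hc (a : Ag σ π O f g) (h : Tm σ π) (ok : σ.Ok univ θ) (hρ : ∀ z, σ.ρ z = 1)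
    (i l : ι) {z : E} (hz : z ∈ O) : σ.Hc f i l z = σ.Hc g i l (π z) := by
  unfold Sl.Hc
  simp only [h.s, h.Ds ok, h.η hρ, a.DD h ok _ _ hz, a.D _ z hz]

theorem Ag.HH (a : Ag σ π O f g) (h : Tm σ π) (ok : σ.Ok univ θ) (hρ : ∀ z, σ.ρ z = 1)
    (A : ι → ℝ) {z : E} (hz : z ∈ O) : HH σ f z A = HH σ g (π z) A := by
  unfold H168.INF.HH
  simp only [a.Hc h ok hρ _ _ hz]

/-- **The transfer of the facts of one slot.** -/
theorem Own.tr {W₀ lam₀ : E → ℝ} {e : ℝ} (h : Tm σ π) (ok : σ.Ok univ θ) (hρ : ∀ z, σ.ρ z = 1)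
    (a : Ag σ π O W W₀) (b : Ag σ π O lam lam₀) {z : E} (hz : z ∈ O)
    (el : lam z = lam₀ (π z)) (o : Own σ W₀ lam₀ e (π z)) : Own σ W lam e z := by
  have h1 := a.L h ok hz
  have h2 := (a.LL h ok).L h ok hz
  have h3 : σ.F W z = σ.F W₀ (π z) := a.G a h hz
  have h4 := b.G a h hz
  refine ⟨fun A => ?_, ?_, ?_⟩
  · rw [el, ← h.ss A z, a.HH h ok hρ A hz]
    exact o.h A
  · have h5 : (fun i => σ.D i W z) = fun i => σ.D i W₀ (π z) := funext fun i => a.D i z hz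
    rw [h2, h5, a.HH h ok hρ _ hz]
    exact o.o
  · rw [h1, h3, h4, el]
    exact o.w

end Vale.Agent.P088.R2.H168.INF
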