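import Vale.Agent.P088.R2.H168.INF.H2p
import Vale.Agent.P088.R2.H404.INF.ZiH
import Vale.Agent.P088.R2.H313.INF.O2
import Vale.Agent.P088.R2.H673.INF.RowO3
import Vale.Agent.P088.R2.H591.X.Of

/-!
# P088, stage 3, leaf iH: the zone theorem from the rows `H1`, `O1`, `SS`
-/

open Set Filter MeasureTheory
open scoped ContDiff Topology Matrix

noncomputable section

namespace Vale.Agent.P088.R2.H168.INF

open Vale.Agent.P088.LR Vale.Agent.P088.HY Vale.Agent.P088.R2.H31.EP
open Vale.Agent.P088.R2.H558.G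

variable {n : ℕ}

/-- **The leaf iH** from the three rows. -/
theorem ziH_of (hn : 1 ≤ n) (h1 : RowH1 n) (o1 : RowO1 n) (ss : RowSS n) : ZiH n :=
  H404.ZI.zone_iH hn h1 (rowH2 hn o1 (H313.INF.rowO2 hn) (H673.O3.rowO3 n) ss)

/-- In the form of the final assembly. -/
theorem zrF_iH_of (h : ZiH n) {F : Lf n} (hM : F.FM .iH = fun q d => MiH q d)
    (hC : F.FC .iH = fun q d => CiH (d.ch q .iH) q d) : ZRF F .iH := by
  refine H591.X.ZRF.of (by simp) ?_
  rw [hM, hC]
  exact h

end Vale.Agent.P088.R2.H168.INF
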