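import Vale.Agent.P088.R2.H168.INF.Zth0
import Vale.Agent.P088.R2.H835.INF.H1
import Vale.Agent.P088.R2.H808.INF.O1
import Vale.Agent.P088.R2.H406.INF.SS

/-!
# P088, stage 3, leaf iH: the zone theorem
-/

open Set Filter MeasureTheory
open scoped ContDiff Topology Matrix

noncomputable section

namespace Vale.Agent.P088.R2.H168.INF

open Vale.Agent.P088.LR Vale.Agent.P088.HY Vale.Agent.P088.R2.H31.EP
open Vale.Agent.P088.R2.H558.G

variable {n : ℕ}

/-- **The leaf iH.** -/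
theorem ziH (hn : 1 ≤ n) : ZiH n :=
  ziH_of hn (H835.INF.rowH1 hn) (H808.INF.rowO1 hn) (H406.INF.rowSS hn)

theorem zrF_iH (hn : 1 ≤ n) {F : Lf n} (hM : F.FM .iH = fun q d => MiH q d)
    (hC : F.FC .iH = fun q d => CiH (d.ch q .iH) q d) : ZRF F .iH :=
  zrF_iH_of (ziH hn) hM hC

end Vale.Agent.P088.R2.H168.INF
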